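import Vale.Agent.P014B.Iface
import Vale.Agent.P004G.H575.Ent

/-!
# P014G: the analytic facts on the twisted `L`-functions
-/

open Complex MeasureTheory Set
open scoped Real

namespace Vale.Agent.P014G

open Vale.Agent.P014 Vale.Agent.P014.H687 Vale.Agent.P014B
open Vale.Agent.P014.H70 (r3 Th3)
open P004G (LD TH FEq IsL)
open P004G.Rk (PhiA hf)

/-- the twisted coefficients -/
noncomputable def AA (n m : ℕ) : ℤ := an r3 m * jacobiSym m n

theorem ld_AA (n : ℕ) : LD (AA n) where
  zero := by simp [AA, an_zero T3]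
  one := by simp [AA, an_one T3]
  mul a b h := by
    simp only [AA, (hk T3).mul a b h, Nat.cast_mul, jacobiSym.mul_left]
    ring
  loc p hp := by
    have hj : ∀ k : ℕ, jacobiSym ((p ^ k : ℕ) : ℤ) n = jacobiSym p n ^ k := fun k => by
      rw [Nat.cast_pow, jacobiSym.pow_left]
    rcases eq_or_ne p 17 with rfl | h17
    · refine Or.inr ⟨fun k => ?_, ?_⟩
      · simp only [AA, hj, (hk T3).pow_U hp dvd_rfl]
        ring
      · simp only [AA, an_17 T3, one_mul]
        rcases jacobiSym.trichotomy ((17 : ℕ) : ℤ) n with h | h | h <;> rw [h] <;> simp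
    · have hN : ¬ p ∣ 17 := fun h => h17 ((Nat.prime_dvd_prime_iff_eq hp (by norm_num)).1 h)
      rcases jacobiSym.trichotomy (p : ℤ) n with h | h | h
      · refine Or.inr ⟨fun k => ?_, ?_⟩
        · simp only [AA, hj, h]
          simp
        · simp [AA, h]
      · refine Or.inl ⟨fun k => ?_, ?_⟩
        · simp only [AA, hj, h, (hk T3).pow_T hp hN]
          ring
        · simpa [AA, h] using an_hasse hp h17
      · refine Or.inl ⟨fun k => ?_, ?_⟩
        · simp only [AA, hj, h, (hk T3).pow_T hp hN]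
          ring
        · simpa [AA, h] using an_hasse hp h17

theorem TH_AA (n : ℕ) (u : ℝ) : TH (AA n) u = 4 * FF n (u / 2) := by
  unfold TH FF Vale.Agent.P004.H26.fD AA
  congr 1
  refine tsum_congr fun m => ?_
  congr 2
  ring

section

variable {n : ℕ} (hs : Squarefree n) (ho : Odd n) (h17 : ¬ 17 ∣ n)

include hs ho h17

theorem FF_fe {y : ℝ} (hy : 0 < y) : FF n (1 / (17 * (n : ℝ) ^ 2 * y)) =
    jacobiSym (-17) n * (17 * (n : ℝ) ^ 2) * y ^ 2 * FF n y := by
  have h0 : NeZero n := ⟨hs.ne_zero⟩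
  exact Vale.Agent.P004.H26.fe1 Vale.Agent.P004.H26.form17
    (Vale.Agent.P004H.H871.rc_odd n h0 hs ho)
    ((Nat.Prime.coprime_iff_not_dvd (by norm_num)).2 h17).symm hy

theorem feq_AA : FEq (AA n) (17 * (n : ℝ) ^ 2 / 4) (jacobiSym (-17) n) := by
  have hn : (0 : ℝ) < n := by exact_mod_cast Nat.pos_of_ne_zero hs.ne_zero
  refine ⟨by positivity, ?_, fun u hu => ?_⟩
  · have h1 : Int.gcd (-17) n = 1 := by
      rw [Int.neg_gcd]
      exact (Nat.Prime.coprime_iff_not_dvd (by norm_num)).2 h17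
    rcases jacobiSym.eq_one_or_neg_one h1 with h | h <;> rw [h] <;> simp
  · have h1 := FF_fe hs ho h17 (y := 1 / (17 * (n : ℝ) ^ 2 / 4 * u) / 2) (by positivity)
    have e1 : 1 / (17 * (n : ℝ) ^ 2 * (1 / (17 * (n : ℝ) ^ 2 / 4 * u) / 2)) = u / 2 := by
      field_simp
      ring
    rw [e1] at h1
    rw [TH_AA, TH_AA, h1]
    field_simp
    ring

theorem FF_integrable : IntegrableOn (FF n) (Ioi 0) := by
  have h1 := P004G.Rk.PhiA_conv (ld_AA n) (feq_AA hs ho h17) 1
  unfold MellinConvergent at h1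
  simp only [sub_self, cpow_zero, one_smul] at h1
  have h2 : IntegrableOn (TH (AA n)) (Ioi 0) := by
    have := h1.re
    simp only [RCLike.re_to_complex, ofReal_re] at this
    exact this
  have h3 := (integrableOn_Ioi_comp_mul_left_iff (TH (AA n)) 0 (a := 2) two_pos).2 (by simpa using h2)
  have h4 := h3.const_mul (1 / 4)
  refine IntegrableOn.congr_fun h4 (fun y _ => ?_) measurableSet_Ioi
  simp only [TH_AA]
  rw [mul_div_cancel_left₀ y two_ne_zero]
  ring

omit hs ho h17 in
theorem Phi_one : PhiA (AA n) 1 * hf 1 = Lv n := by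
  have h1 : PhiA (AA n) 1 = ((∫ u in Ioi (0 : ℝ), TH (AA n) u : ℝ) : ℂ) := by
    unfold PhiA mellin
    simp only [sub_self, cpow_zero, one_smul]
    exact integral_ofReal
  have h2 : ∫ u in Ioi (0 : ℝ), TH (AA n) u = 8 * ∫ y in Ioi (0 : ℝ), FF n y := by
    simp only [TH_AA]
    rw [integral_const_mul]
    have h3 := integral_comp_mul_left_Ioi (FF n) 0 (b := 1 / 2) (by norm_num)
    simp only [mul_zero] at h3
    have h4 : (fun u : ℝ => FF n (u / 2)) = fun u => FF n (1 / 2 * u) := by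
      funext u
      congr 1
      ring
    rw [h4, h3]
    simp only [smul_eq_mul]
    ring
  rw [h1, h2, hf, Lv]
  simp only [cpow_one, Complex.Gamma_one]
  push_cast
  ring

theorem Lv_zero (h : jacobiSym (-17) n = -1) : Lv n = 0 := by
  have h1 := P004G.Rk.PhiA_fe (feq_AA hs ho h17) 1
  rw [h] at h1
  norm_num at h1
  have h2 : PhiA (AA n) 1 = 0 := by linear_combination h1 / 2
  have h3 := Phi_one (n := n)
  rw [h2, zero_mul] at h3
  exact_mod_cast h3.symm

omit ho in
theorem isHW_iff {k : ℤ} (hk : (4 * k + 1).natAbs = n) (L : ℂ → ℂ) :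
    IsHasseWeil (tw k) L ↔ IsL (AA n) L := by
  have hsq : Squarefree (4 * k + 1) := by
    rw [← Int.squarefree_natAbs, hk]
    exact hs
  have h17' : ¬ (17 : ℤ) ∣ 4 * k + 1 := by
    intro h
    apply h17
    rw [← hk]
    exact Int.natAbs_dvd_natAbs.2 h
  have e : ∀ s : ℂ, LSeries.term (fun m => ((tw k).LFunction m : ℂ)) s =
      fun m : ℕ => (AA n m : ℂ) / (m : ℂ) ^ s := by
    intro s
    funext m
    rw [LSeries.term_def]
    split_ifs with hm
    · rw [hm, (ld_AA n).zero]
      simp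
    · rw [LFunction_tw k hsq h17' m, hk, AA, mul_comm]
  unfold IsHasseWeil IsL LSeriesHasSum
  simp only [e]
  refine and_congr_right fun _ => forall_congr' fun s => forall_congr' fun hs => ?_
  constructor
  · intro h
    exact h.tsum_eq.symm
  · intro h
    rw [h]
    exact (P004G.Rk.summable_dirC (ld_AA n) hs).hasSum

end

/-- **block L** -/
theorem lstmt : LStmt := by
  intro n hs ho h17
  refine ⟨FF_integrable hs ho h17, Lv_zero hs ho h17, fun k hk => ?_⟩
  have h1 := P004G.Rk.isL_PhiA (ld_AA n) (feq_AA hs ho h17)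
  refine ⟨⟨_, (isHW_iff hs h17 hk _).2 h1⟩, fun L hL => ?_⟩
  rw [P004G.Rk.isL_unique h1 ((isHW_iff hs h17 hk L).1 hL)]
  exact Phi_one

end Vale.Agent.P014G
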