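import Vale.Agent.P014G.Per

/-!
# P014G: the period lattice of `17a1` has the same imaginary period
-/

open Complex Filter Topology Set MeasureTheory
open scoped ComplexConjugate

namespace Vale.Agent.P014G

theorem exists_L1 : ∃ L : PeriodPair, L.g₂ = 11 / 4 ∧ L.g₃ = 445 / 8 :=
  exists_lattice (by norm_num) (by norm_num) (by norm_num)

/-- the period lattice of `17a1` -/
noncomputable def L1 : PeriodPair := exists_L1.choose

theorem L1_g2 : L1.g₂ = 11 / 4 := exists_L1.choose_spec.1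

theorem L1_g3 : L1.g₃ = 445 / 8 := exists_L1.choose_spec.2

theorem L1_real : IsReal L1 where
  g2 := by rw [L1_g2, map_div₀, map_ofNat, map_ofNat]
  g3 := by rw [L1_g3, map_div₀, map_ofNat, map_ofNat]

theorem cx_one (x : ℝ) : cx L1 (-1) x = (x + 5 / 2) * ((2 * x - 5 / 2) ^ 2 + 16) := by
  rw [cx, L1_g2, L1_g3]
  norm_num
  ring

/-- the isogeny on the imaginary axis -/
theorem br_isog {s s' : ℝ → ℝ} {h : ℝ} (b : Br s s' (cub (3 / 2) (5 / 4) (-11 / 4)) h)
    (hs : s h = 3 / 2) : Br (fun t => s t - (s t - 5 / 4)⁻¹)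
      (fun t => s' t * (1 + 1 / (s t - 5 / 4) ^ 2)) (cx L1 (-1)) h := by
  have h1 : ∀ t ∈ Ioc 0 h, 1 / 4 ≤ s t - 5 / 4 := fun t ht => by
    have := b.le_of_mem ht
    linarith
  have h2 : ∀ t ∈ Ioc 0 h, s t - 5 / 4 ≠ 0 := fun t ht => by
    have := h1 t ht
    positivity
  refine ⟨b.pos, fun t ht => ?_, fun t ht => ?_, fun t ht => ?_, ?_, ?_⟩
  · have h3 := h2 t (Ioo_subset_Ioc_self ht)
    refine ((b.der t ht).fun_sub (((b.der t ht).sub_const _).fun_inv h3)).congr_deriv ?_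
    field_simp
    ring
  · exact mul_ne_zero (b.ne t ht) (by positivity)
  · have h3 := h2 t (Ioo_subset_Ioc_self ht)
    rw [mul_pow, b.sq t ht, cx_one, cub]
    obtain ⟨v, hv⟩ : ∃ v, s t = v + 5 / 4 := ⟨s t - 5 / 4, by ring⟩
    rw [hv] at h3 ⊢
    simp only [add_sub_cancel_right] at h3 ⊢
    field_simp
    ring
  · exact b.cont.sub ((b.cont.sub continuousOn_const).inv₀ h2)
  · refine tendsto_atTop_mono' _ ?_ (tendsto_atTop_add_const_right _ (-4) b.top)
    filter_upwards [Ioc_mem_nhdsGT b.pos] with t ht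
    have h3 : (s t - 5 / 4)⁻¹ ≤ 4 := by
      rw [inv_le_comm₀ (by linarith [h1 t ht]) (by norm_num)]
      linarith [h1 t ht]
    linarith

theorem gen_one : Gen L1 I wI := by
  obtain ⟨ω, g⟩ := exists_gen L1_real dir_m
  have h1 := (g.br L1_real dir_m).integral
  have h2 := g.root L1_real dir_m
  rw [cx_one] at h2
  have h3 : sx L1 I (-1) (ω / 2) = -5 / 2 := by
    have := (mul_eq_zero.1 h2).resolve_right (by positivity)
    linarith
  have h4 := gen_m.br L0_real dir_m
  rw [cx_m] at h4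
  have h5 := (br_isog h4 sx_m).integral
  simp only [sx_m] at h5
  rw [h3] at h1
  rw [show (3 / 2 - (3 / 2 - 5 / 4)⁻¹ : ℝ) = -5 / 2 by norm_num, h1] at h5
  rwa [show wI = ω by linarith]

theorem two_im_one {l : ℂ} (hl : l ∈ L1.lattice) : ∃ n : ℤ, 2 * l.im = n * wI :=
  (gen_one.mem _).1 (two_im_mem L1_real hl)

end Vale.Agent.P014G
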