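import Vale.Agent.P014G.Mod
import Vale.Agent.P014G.Per1
import Vale.Agent.P014G.L
import Vale.Agent.P004.I3

/-!
# P014G: the central value of the twist by `-3`
-/

open Complex Filter Topology Set MeasureTheory
open scoped Real

namespace Vale.Agent.P014G

open Vale.Agent.P014.H687 Vale.Agent.P014B
open Vale.Agent.P014.H70 (r3 Th3)
open Vale.Agent.P004H.H204 (Conv ev qq norm_qq norm_qq_lt)

theorem uu_im {z : ℂ} (hz : 0 < z.im) :
    HasSum (fun m : ℕ => (an r3 m : ℝ) / m * (qq z ^ m).im) (uu z).im := by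
  refine (Complex.hasSum_im (conv_pU.hasSum (norm_qq_lt hz))).congr_fun fun m => ?_
  rw [coeff_pU, ← Complex.im_ofReal_mul]
  push_cast
  rfl

theorem f_im {z : ℂ} (hz : 0 < z.im) :
    HasSum (fun m : ℕ => (an r3 m : ℝ) * (qq z ^ m).im) (Fc Th3 z).im := by
  refine (Complex.hasSum_im ((F_form' T3).sum z hz)).congr_fun fun m => ?_
  rw [← Complex.im_ofReal_mul]
  push_cast
  rfl

theorem qq_axis (y : ℝ) : qq (y * I) = (Real.exp (-2 * π * y) : ℝ) := by
  unfold qq
  push_cast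
  congr 1
  linear_combination 2 * π * y * I_mul_I

theorem uu_axis {y : ℝ} (hy : 0 < y) : (uu (y * I)).im = 0 := by
  have h := uu_im (z := y * I) (by simpa using hy)
  simp only [qq_axis, ← Complex.ofReal_pow, Complex.ofReal_im, mul_zero] at h
  exact h.unique hasSum_zero

theorem uu_W {z : ℂ} (hz : 0 < z.im) : (uu (-1 / (17 * z))).im = -(uu z).im := by
  have hs : (0 : ℝ) < √17 := by positivity
  have h1 := const_of (G := fun z => uu (-1 / (17 * z)) + uu z) (fun x hx => by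
    have h0 := ne_of_im hx
    have hd : HasDerivAt (fun w : ℂ => -1 / (17 * w)) (1 / (17 * x ^ 2)) x := by
      refine ((hasDerivAt_const x (-1 : ℂ)).fun_div ((hasDerivAt_id' x).const_mul (17 : ℂ))
        (mul_ne_zero (by norm_num) h0)).congr_deriv ?_
      field_simp
      ring
    refine (((uu_der (Vale.Agent.P004H.H792.im_S (im17 hx))).comp x hd).fun_add
      (uu_der hx)).congr_deriv ?_
    rw [(F_form' T3).W x hx]
    field_simp
    ring) hz (w := ((1 / √17 : ℝ) : ℂ) * I) (by simp)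
  have h2 : -1 / (17 * (((1 / √17 : ℝ) : ℂ) * I)) = ((1 / √17 : ℝ) : ℂ) * I := by
    have h3 : ((√17 : ℝ) : ℂ) ^ 2 = 17 := by exact_mod_cast Real.sq_sqrt (by norm_num : (0 : ℝ) ≤ 17)
    have h4 : ((√17 : ℝ) : ℂ) ≠ 0 := by exact_mod_cast hs.ne'
    push_cast
    field_simp
    rw [h3, I_sq]
    ring
  rw [h2] at h1
  have h5 := congrArg Complex.im h1
  rw [add_im, add_im, uu_axis (by positivity)] at h5
  linarith

/-- the height of the fixed point -/
noncomputable def y0 : ℝ := 1 / √153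

theorem y0_pos : 0 < y0 := by
  unfold y0
  positivity

theorem y0_sq : 153 * y0 ^ 2 = 1 := by
  rw [y0, div_pow, Real.sq_sqrt (by norm_num)]
  norm_num

/-- the vertical line through `1 / 3` -/
noncomputable def zz (y : ℝ) : ℂ := 1 / 3 + y * I

theorem zz_im (y : ℝ) : (zz y).im = y := by simp [zz]

theorem four_im : ∃ m : ℤ, 4 * (uu (zz y0)).im = m * wI := by
  have hz : 0 < (zz y0).im := by rw [zz_im]; exact y0_pos
  have h1 := period_mem L1_g2 L1_g3 (a := 6) (b := 1) (c := 1) (d := 3) (by norm_num)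
    (Vale.Agent.P004H.H792.im_S (im17 hz))
  have h0 := ne_of_im hz
  have h2 : (((6 : ℤ) : ℂ) * (-1 / (17 * zz y0)) + (1 : ℤ)) /
      (((17 * 1 : ℤ) : ℂ) * (-1 / (17 * zz y0)) + (3 : ℤ)) = zz y0 := by
    have h3 := den_ne (a := 6) (b := 1) (c := 17 * 1) (d := 3) (by norm_num)
      (Vale.Agent.P004H.H792.im_S (im17 hz))
    have h4 : (153 : ℂ) * (y0 : ℂ) ^ 2 = 1 := by exact_mod_cast y0_sq
    rw [div_eq_iff h3]
    push_cast
    field_simp
    unfold zz
    linear_combination 1 / 3 * h4 - 51 * (y0 : ℂ) ^ 2 * I_sq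
  rw [h2] at h1
  obtain ⟨m, hm⟩ := two_im_one h1
  rw [sub_im, uu_W hz] at hm
  exact ⟨m, by linarith⟩

/-- a cube root of unity -/
noncomputable def om : ℂ := ⟨-1 / 2, √3 / 2⟩

theorem om_eq : cexp (2 * π * I * (1 / 3)) = om := by
  have h1 : 2 * π * I * (1 / 3) = ((π - π / 3 : ℝ) : ℂ) * I := by
    push_cast
    ring
  rw [h1]
  apply Complex.ext
  · rw [Complex.exp_ofReal_mul_I_re, Real.cos_pi_sub, Real.cos_pi_div_three, om]
    norm_num
  · rw [Complex.exp_ofReal_mul_I_im, Real.sin_pi_sub, Real.sin_pi_div_three, om]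

theorem om_cube : om ^ 3 = 1 := by
  rw [← om_eq, ← Complex.exp_nat_mul]
  refine Eq.trans (congrArg cexp ?_) Complex.exp_two_pi_mul_I
  push_cast
  ring

theorem om_pow (m : ℕ) : (om ^ m).im = √3 / 2 * jacobiSym m 3 := by
  rw [← Nat.div_add_mod m 3, pow_add, pow_mul, om_cube, one_pow, one_mul, Nat.div_add_mod,
    jacobiSym.mod_left, ← Int.natCast_mod]
  have h : m % 3 < 3 := Nat.mod_lt _ (by norm_num)
  generalize m % 3 = k at *
  interval_cases k
  · have h1 : jacobiSym ((0 : ℕ) : ℤ) 3 = 0 := by norm_num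
    rw [h1]
    simp
  · simp [om]
  · have h1 : jacobiSym ((2 : ℕ) : ℤ) 3 = -1 := by norm_num
    rw [h1]
    simp [om, sq]
    ring

theorem qq_zz (y : ℝ) (m : ℕ) :
    (qq (zz y) ^ m).im = √3 / 2 * jacobiSym m 3 * Real.exp (-2 * π * m * y) := by
  have h1 : qq (zz y) = om * (Real.exp (-2 * π * y) : ℝ) := by
    rw [← om_eq, ← qq_axis, qq, qq, ← Complex.exp_add, zz]
    congr 1
    ring
  rw [h1, mul_pow, ← Complex.ofReal_pow, Complex.im_mul_ofReal, om_pow, ← Real.exp_nat_mul]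
  congr 2
  ring

theorem f_zz {y : ℝ} (hy : 0 < y) : (Fc Th3 (zz y)).im = √3 / 2 * FF 3 y := by
  rw [← (f_im (z := zz y) (by rwa [zz_im])).tsum_eq, FF, Vale.Agent.P004.H26.fD, ← tsum_mul_left]
  refine tsum_congr fun m => ?_
  rw [qq_zz]
  push_cast
  ring

theorem g_der {y : ℝ} (hy : 0 < y) :
    HasDerivAt (fun y : ℝ => (uu (zz y)).im) (-(π * √3) * FF 3 y) y := by
  have h1 : HasDerivAt (fun w : ℂ => 1 / 3 + w * I) I (y : ℂ) := by
    simpa using ((hasDerivAt_id' (y : ℂ)).mul_const I).const_add (1 / 3)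
  have h2 := ((uu_der (z := zz y) (by rwa [zz_im])).comp (y : ℂ) h1).comp_ofReal
  have h3 := Complex.imCLM.hasFDerivAt.comp_hasDerivAt y h2
  refine HasDerivAt.congr_deriv h3 ?_
  have h4 : 2 * π * I * Fc Th3 (zz y) * I = ((-(2 * π) : ℝ) : ℂ) * Fc Th3 (zz y) := by
    push_cast
    linear_combination 2 * π * Fc Th3 (zz y) * I_mul_I
  rw [Complex.imCLM_apply, h4, Complex.im_ofReal_mul, f_zz hy]
  ring

theorem g_lim : Tendsto (fun y : ℝ => (uu (zz y)).im) atTop (𝓝 0) := by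
  have h1 : Tendsto (fun y : ℝ => qq (zz y)) atTop (𝓝 0) := by
    rw [tendsto_zero_iff_norm_tendsto_zero]
    simp only [norm_qq, zz_im]
    exact Real.tendsto_exp_neg_atTop_nhds_zero.comp
      (tendsto_id.const_mul_atTop (by positivity : 0 < 2 * π))
  have h2 := (Complex.continuous_im.tendsto _).comp (conv_pU.tendsto.comp h1)
  have h3 : (PowerSeries.constantCoeff pU).im = 0 := by simp [pU]
  rw [h3] at h2
  exact h2

theorem FF3_int : IntegrableOn (FF 3) (Ioi 0) :=
  FF_integrable Nat.prime_three.squarefree (by decide) (by decide)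

theorem FF3_half : ∫ y in Ioo 0 y0, FF 3 y = ∫ y in Ioi y0, FF 3 y := by
  have h0 := y0_pos
  have h1 : Ioo 0 y0 = (fun y : ℝ => 1 / (153 * y)) '' Ioi y0 := by
    ext x
    constructor
    · rintro ⟨h2, h3⟩
      refine ⟨1 / (153 * x), ?_, by field_simp⟩
      rw [mem_Ioi, lt_div_iff₀ (by positivity)]
      nlinarith [y0_sq]
    · rintro ⟨y, hy, rfl⟩
      have h2 : y0 < y := hy
      have h3 : 0 < y := h0.trans h2
      refine ⟨by positivity, ?_⟩
      rw [div_lt_iff₀ (by positivity)]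
      nlinarith [y0_sq]
  rw [h1, integral_image_eq_integral_abs_deriv_smul (f' := fun y => -(1 / (153 * y ^ 2)))
    measurableSet_Ioi]
  · refine setIntegral_congr_fun measurableSet_Ioi fun y hy => ?_
    have h3 : 0 < y := h0.trans hy
    have h4 := FF_fe Nat.prime_three.squarefree (by decide) (by decide) h3
    have h5 : jacobiSym (-17) 3 = 1 := by norm_num
    rw [h5] at h4
    norm_num at h4
    simp only [smul_eq_mul]
    rw [abs_neg, abs_of_pos (by positivity), show 1 / (153 * y) = y⁻¹ * (1 / 153) by field_simp, h4]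
    field_simp
  · intro y hy
    have h3 : 0 < y := h0.trans hy
    refine ((hasDerivAt_const y (1 : ℝ)).fun_div ((hasDerivAt_id' y).const_mul 153)
      (by positivity)).hasDerivWithinAt.congr_deriv ?_
    field_simp
    ring
  · intro x hx y hy h
    have h3 : 0 < x := h0.trans hx
    have h4 : 0 < y := h0.trans hy
    simp only at h
    field_simp at h
    linarith

theorem ell_three : ell 3 = 4 * (uu (zz y0)).im := by
  have h0 := y0_pos
  have h1 := FF3_int.mono_set (Ioi_subset_Ioi h0.le)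
  have h2 := integral_Ioi_of_hasDerivAt_of_tendsto' (a := y0)
    (fun y hy => g_der (h0.trans_le hy)) (h1.const_mul _) g_lim
  rw [integral_const_mul] at h2
  have h3 : Ioi (0 : ℝ) = Ioc 0 y0 ∪ Ioi y0 := (Ioc_union_Ioi_eq_Ioi h0.le).symm
  rw [ell, Lv, h3, setIntegral_union (Ioc_disjoint_Ioi le_rfl) measurableSet_Ioi
    (FF3_int.mono_set Ioc_subset_Ioi_self) h1, integral_Ioc_eq_integral_Ioo, FF3_half]
  push_cast
  linarith

theorem r_le : Real.exp (-2 * π * y0) ≤ 0.605 := by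
  have h1 : 0.0808 ≤ y0 := by
    nlinarith [y0_sq, y0_pos]
  have h2 : 0.507 ≤ 2 * π * y0 := by
    nlinarith [Real.pi_gt_d2]
  have h3 := Real.sum_le_exp_of_nonneg (x := 0.507) (by norm_num) 4
  simp only [Finset.sum_range_succ, Finset.sum_range_zero, Nat.factorial] at h3
  have h4 := Real.exp_le_exp.2 h2
  rw [show -2 * π * y0 = -(2 * π * y0) by ring, Real.exp_neg, inv_le_comm₀ (Real.exp_pos _)
    (by norm_num)]
  norm_num at h3 ⊢
  norm_num only at h4
  linarith

theorem AA_le (m : ℕ) : |(AA 3 m : ℝ) / m| ≤ 2 := by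
  rcases Nat.eq_zero_or_pos m with rfl | hm
  · simp
  have h0 : (0 : ℝ) < m := by exact_mod_cast hm
  rw [abs_div, abs_of_pos h0, div_le_iff₀ h0]
  refine (P004G.pfLbound _ (ld_AA 3) m).trans ?_
  calc P004.dv m * √(m : ℝ) ≤ 2 * √(m : ℝ) * √(m : ℝ) :=
        mul_le_mul_of_nonneg_right (P004.I3.dv_le_sqrt m) (Real.sqrt_nonneg _)
    _ = 2 * m := by rw [mul_assoc, Real.mul_self_sqrt h0.le]

theorem sum_le {r : ℝ} (h0 : 0 ≤ r) (h1 : r ≤ 0.605) {S : ℝ}
    (h : HasSum (fun m : ℕ => (AA 3 m : ℝ) / m * r ^ m) S) : |S| ≤ 0.933 := by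
  have h2 := (hasSum_nat_add_iff' 9).2 h
  have h3 : HasSum (fun m : ℕ => 2 * (0.605 : ℝ) ^ 9 * 0.605 ^ m)
      (2 * 0.605 ^ 9 * (1 - 0.605)⁻¹) :=
    (hasSum_geometric_of_lt_one (by norm_num) (by norm_num)).mul_left _
  have h4 : ‖S - ∑ i ∈ Finset.range 9, (AA 3 i : ℝ) / i * r ^ i‖ ≤
      2 * 0.605 ^ 9 * (1 - 0.605)⁻¹ := by
    refine h2.norm_le_of_bounded h3 fun m => ?_
    rw [Real.norm_eq_abs, abs_mul, abs_of_nonneg (pow_nonneg h0 _), mul_assoc, ← pow_add,
      add_comm 9 m]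
    gcongr
    exact AA_le _
  have j2 : jacobiSym 2 3 = -1 := by norm_num
  have j4 : jacobiSym 4 3 = 1 := by norm_num
  have j5 : jacobiSym 5 3 = -1 := by norm_num
  have j7 : jacobiSym 7 3 = 1 := by norm_num
  have j8 : jacobiSym 8 3 = -1 := by norm_num
  simp only [Finset.sum_range_succ, Finset.sum_range_zero, AA, an_zero T3, an_one T3, an_two T3,
    an_three T3, an_four T3, an_five T3, an_six T3, an_seven T3, an_eight T3, Nat.cast_ofNat,
    j2, j4, j5, j7, j8, Nat.cast_one, jacobiSym.one_left, Real.norm_eq_abs] at h4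
  have p : ∀ k : ℕ, 0 ≤ r ^ k ∧ r ^ k ≤ 0.605 ^ k := fun k => ⟨by positivity, by gcongr⟩
  obtain ⟨h5, h6⟩ := abs_le.1 h4
  have p1 := p 1
  have p2 := p 2
  have p4 := p 4
  have p5 := p 5
  have p7 := p 7
  have p8 := p 8
  norm_num at h5 h6 p1 p2 p4 p5 p7 p8
  rw [abs_le]
  constructor <;> linarith [p1.1, p1.2, p2.1, p2.2, p4.1, p4.2, p5.1, p5.2, p7.1, p7.2, p8.1, p8.2]

theorem g_le : |(uu (zz y0)).im| ≤ √3 / 2 * 0.933 := by
  have hs : (0 : ℝ) < √3 / 2 := by positivity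
  have h1 := (uu_im (z := zz y0) (by rw [zz_im]; exact y0_pos)).div_const (√3 / 2)
  have h2 := sum_le (Real.exp_pos _).le r_le (h1.congr_fun fun m => by
    rw [qq_zz, AA, ← Real.exp_nat_mul, eq_div_iff hs.ne']
    push_cast
    rw [show (m : ℝ) * (-2 * π * y0) = -2 * π * m * y0 by ring]
    ring)
  rwa [abs_div, abs_of_pos hs, div_le_iff₀' hs] at h2

/-- **block G, the base value** -/
theorem base : BaseStmt := by
  intro hne
  obtain ⟨m, hm⟩ := four_im
  rw [← ell_three] at hm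
  have h1 : |ell 3| < 2 * wI := by
    have h2 : √3 ≤ (1.7321 : ℝ) := Real.sqrt_le_iff.2 ⟨by norm_num, by norm_num⟩
    rw [ell_three, abs_mul, abs_of_pos (by norm_num : (0 : ℝ) < 4)]
    linarith [g_le, wI_lb]
  have h0 := gen_m.pos
  rw [hm, abs_mul, abs_of_pos h0, mul_lt_mul_iff_left₀ h0] at h1
  have h2 : |m| < 2 := by exact_mod_cast h1
  have h3 : m ≠ 0 := by
    rintro rfl
    exact hne (by simpa using hm)
  refine ⟨m, ?_, by rw [hm, Om_eq]; ring⟩
  rw [abs_lt] at h2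
  exact Int.odd_iff.2 (by omega)

end Vale.Agent.P014G
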