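import Vale.Agent.P014G.Par
import Vale.Agent.P014B.Iface

/-!
# P014G: the modular parametrisation of level `17`
-/

open Complex Filter Topology PowerSeries
open scoped Real

namespace Vale.Agent.P014G

open Vale.Agent.P010.H193 Vale.Agent.P014.H687
open Vale.Agent.P014.H70 (r3 Th3)
open Vale.Agent.P004H.H204 (Conv ev qq th conv_th conv_X ev_X ev_mul exists_qq hasDerivAt_qq
  norm_qq_lt coeff_th eventually_im mob_im mob_deriv)

theorem ev_analytic {p : ℂ⟦X⟧} (hp : Conv p) {q : ℂ} (hq : ‖q‖ < 1) : AnalyticAt ℂ (ev p) q := by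
  obtain ⟨r, h1, h2⟩ := exists_between hq
  have hr : 0 ≤ r := (norm_nonneg q).trans h1.le
  have h3 : DifferentiableOn ℂ (fun w : ℂ => ∑' n, coeff n p * w ^ n) (Metric.ball 0 r) :=
    differentiableOn_tsum_of_summable_norm (hp r hr h2) (fun n => by fun_prop) Metric.isOpen_ball
      (fun n w hw => by
        rw [norm_mul, norm_pow]
        have : ‖w‖ ≤ r := (mem_ball_zero_iff.1 hw).le
        gcongr)
  exact h3.analyticAt (Metric.isOpen_ball.mem_nhds (mem_ball_zero_iff.2 h1))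

theorem ev_zero (p : ℂ⟦X⟧) : ev p 0 = coeff 0 p := by
  unfold ev
  rw [tsum_eq_single 0]
  · simp
  · intro n hn
    simp [hn]

theorem ev_deriv {p : ℂ⟦X⟧} (hp : Conv p) {q : ℂ} (h0 : q ≠ 0) (hq : ‖q‖ < 1) :
    q * deriv (ev p) q = ev (th p) q := by
  obtain ⟨z, hz, rfl⟩ := exists_qq h0 hq
  have h1 := ((ev_analytic hp hq).differentiableAt.hasDerivAt.comp z (hasDerivAt_qq z)).unique
    (hp.hasDerivAt hz)
  apply mul_left_cancel₀ two_pi_I_ne
  linear_combination h1

/-- the expansion of the cusp form -/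
noncomputable def pf : ℂ⟦X⟧ := PowerSeries.mk fun n => (an r3 n : ℂ)

/-- the expansion of the Eisenstein series -/
noncomputable def pE : ℂ⟦X⟧ := PowerSeries.mk fun n => (cE n : ℂ)

/-- `f / q` -/
noncomputable def pF : ℂ⟦X⟧ := PowerSeries.mk fun n => (an r3 (n + 1) : ℂ)

/-- `u / q` -/
noncomputable def pV : ℂ⟦X⟧ := PowerSeries.mk fun n => (an r3 (n + 1) : ℂ) / (n + 1)

/-- the Eichler integral -/
noncomputable def pU : ℂ⟦X⟧ := X * pV

theorem pf_eq : pf = X * pF := by
  ext n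
  rcases n with _ | n
  · simp [pf, an_zero T3]
  · simp [pf, pF, coeff_succ_X_mul]

theorem coeff_pU (n : ℕ) : coeff n pU = (an r3 n : ℂ) / n := by
  rcases n with _ | n
  · simp [pU]
  · simp [pU, pV, coeff_succ_X_mul]

theorem th_pU : th pU = pf := by
  ext n
  rw [coeff_th, coeff_pU, pf, coeff_mk]
  rcases n with _ | n
  · simp [an_zero T3]
  · have : ((n + 1 : ℕ) : ℂ) ≠ 0 := by exact_mod_cast Nat.succ_ne_zero n
    field_simp

theorem conv_pf : Conv pf := (F_form' T3).conv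

theorem conv_pE : Conv pE := ec_form.conv

theorem conv_pF : Conv pF := Conv.of_X_pow_mul (m := 1) (by simpa [← pf_eq] using conv_pf)

theorem conv_pV : Conv pV := by
  intro r h0 h1
  refine Summable.of_nonneg_of_le (fun n => by positivity) (fun n => ?_) (conv_pF r h0 h1)
  simp only [pV, pF, coeff_mk, norm_div]
  gcongr
  refine div_le_self (norm_nonneg _) ?_
  have : ((n : ℂ) + 1) = ((n + 1 : ℕ) : ℂ) := by push_cast; ring
  rw [this, Complex.norm_natCast]
  simp

theorem conv_pU : Conv pU := conv_X.mul conv_pV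

theorem ev_pf {q : ℂ} (hq : ‖q‖ < 1) : ev pf q = q * ev pF q := by
  rw [pf_eq, ev_mul conv_X conv_pF hq, ev_X]

theorem ev_pU {q : ℂ} (hq : ‖q‖ < 1) : ev pU q = q * ev pV q := by
  rw [pU, ev_mul conv_X conv_pV hq, ev_X]

theorem ball_ev : ∀ᶠ q in 𝓝[≠] (0 : ℂ), q ≠ 0 ∧ ‖q‖ < 1 := by
  filter_upwards [self_mem_nhdsWithin,
    mem_nhdsWithin_of_mem_nhds (Metric.ball_mem_nhds (0 : ℂ) one_pos)] with q h1 h2
  exact ⟨h1, mem_ball_zero_iff.1 h2⟩

theorem nhds_ball {q : ℂ} (hq : ‖q‖ < 1) : ∀ᶠ x in 𝓝 q, ‖x‖ < 1 :=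
  (isOpen_lt continuous_norm continuous_const).mem_nhds hq

theorem pF_zero : ev pF 0 = 1 := by simp [ev_zero, pF, an_one T3]

theorem pF_ne : ∀ᶠ q in 𝓝 (0 : ℂ), ev pF q ≠ 0 :=
  (ev_analytic conv_pF (by simp)).continuousAt.eventually_ne (by simp [pF_zero])

/-- the form of weight six which is `8 f³ ℘(u)` -/
noncomputable def HH (f E Df DE : ℂ) : ℂ := f * (E - 4 * f) ^ 2 + 2 * (E * Df - f * DE) - 27 * f ^ 3

variable {L : PeriodPair} (g2 : L.g₂ = 11 / 4) (g3 : L.g₃ = 445 / 8)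

include g2 g3

theorem near_cusp : ∀ᶠ q in 𝓝[≠] (0 : ℂ), 8 * ev pf q ^ 3 * L.weierstrassP (ev pU q) -
    HH (ev pf q) (ev pE q) (ev (th pf) q) (ev (th pE) q) = 0 := by
  have aF := ev_analytic conv_pF (q := 0) (by simp)
  have aE := ev_analytic conv_pE (q := 0) (by simp)
  have aV := ev_analytic conv_pV (q := 0) (by simp)
  have hD : ∀ q : ℂ, q ≠ 0 → ‖q‖ < 1 →
      ev (th pf) q = q * (ev pF q + q * deriv (ev pF) q) := by
    intro q h0 h1
    rw [← ev_deriv conv_pf h0 h1]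
    have h2 : ev pf =ᶠ[𝓝 q] fun x => x * ev pF x := (nhds_ball h1).mono fun x hx => ev_pf hx
    rw [h2.deriv_eq, ((hasDerivAt_id' q).fun_mul
      (ev_analytic conv_pF h1).differentiableAt.hasDerivAt).deriv, one_mul]
  have hA : ∀ q : ℂ, ‖q‖ < 1 → ev pF q ≠ 0 → deriv (fun q => ev pE q / ev pF q - 4 * q) q =
      (deriv (ev pE) q * ev pF q - ev pE q * deriv (ev pF) q) / ev pF q ^ 2 - 4 * 1 := by
    intro q h1 h2
    exact (((ev_analytic conv_pE h1).differentiableAt.hasDerivAt.fun_div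
      (ev_analytic conv_pF h1).differentiableAt.hasDerivAt h2).fun_sub
      ((hasDerivAt_id' q).const_mul 4)).deriv
  have key := param_near L g2 g3 (A := fun q => ev pE q / ev pF q - 4 * q) (V := ev pV)
    (F := ev pF) ((aE.div aF (by simp [pF_zero])).sub (by fun_prop)) aF aV
    (by rw [pF_zero]; simp [ev_zero, pE, cE]) pF_zero (by simp [ev_zero, pV, an_one T3])
    (by
      filter_upwards [ball_ev] with q ⟨h0, h1⟩
      have h2 : (fun x => x * ev pV x) =ᶠ[𝓝 q] ev pU :=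
        (nhds_ball h1).mono fun x hx => (ev_pU hx).symm
      refine ((ev_analytic conv_pU h1).differentiableAt.hasDerivAt.congr_of_eventuallyEq
        h2).congr_deriv ?_
      apply mul_left_cancel₀ h0
      rw [ev_deriv conv_pU h0 h1, th_pU, ev_pf h1])
    (by
      filter_upwards [ball_ev, pF_ne.filter_mono nhdsWithin_le_nhds] with q ⟨h0, h1⟩ h2
      have h3 := hD q h0 h1
      have h4 := ev_deriv conv_pE h0 h1
      have h5 := ev_pf h1
      rw [hA q h1 h2]
      obtain ⟨z, hz, rfl⟩ := exists_qq h0 h1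
      have h6 := gg_zero T3 ⟨z, hz⟩
      unfold gg dv at h6
      simp only at h6
      rw [(F_form' T3).eq_ev hz, ec_form.eq_ev hz] at h6
      change 4 * (ev pE (qq z) * ev (th pf) (qq z) - ev pf (qq z) * ev (th pE) (qq z)) ^ 2 -
        ev pf (qq z) ^ 2 * (ev pE (qq z) ^ 4 - 16 * ev pE (qq z) ^ 3 * ev pf (qq z) -
          66 * ev pE (qq z) ^ 2 * ev pf (qq z) ^ 2 - 48 * ev pE (qq z) * ev pf (qq z) ^ 3 -
          127 * ev pf (qq z) ^ 4) = 0 at h6
      rw [h3, ← h4, h5] at h6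
      unfold RR
      generalize qq z = q at *
      field_simp
      apply mul_left_cancel₀ (pow_ne_zero 2 h0)
      linear_combination h6)
  filter_upwards [key, ball_ev, pF_ne.filter_mono nhdsWithin_le_nhds] with q h ⟨h0, h1⟩ h2
  rw [BB, NN, hA q h1 h2] at h
  rw [HH, hD q h0 h1, ← ev_deriv conv_pE h0 h1, ev_pf h1, ev_pU h1]
  have h3 : L.weierstrassP (q * ev pV q) = q ^ 2 * L.weierstrassP (q * ev pV q) / q ^ 2 := by
    field_simp
  rw [h3, h]
  field_simp
  ring

theorem disc_ident {q : ℂ} (hq : ‖q‖ < 1) : ∀ᶠ x in 𝓝[≠] q,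
    8 * ev pf x ^ 3 * L.weierstrassP (ev pU x) -
      HH (ev pf x) (ev pE x) (ev (th pf) x) (ev (th pE) x) = 0 := by
  have hm : MeromorphicOn (fun x => 8 * ev pf x ^ 3 * L.weierstrassP (ev pU x) -
      HH (ev pf x) (ev pE x) (ev (th pf) x) (ev (th pE) x)) (Metric.ball 0 1) := by
    intro x hx
    have h1 := mem_ball_zero_iff.1 hx
    have a1 := ev_analytic conv_pf h1
    have a2 := ev_analytic conv_pE h1
    have a3 := ev_analytic (conv_th conv_pf) h1
    have a4 := ev_analytic (conv_th conv_pE) h1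
    have a5 := (L.meromorphic_weierstrassP _).comp_analyticAt (ev_analytic conv_pU h1)
    refine MeromorphicAt.sub (f := fun x => 8 * ev pf x ^ 3 * L.weierstrassP (ev pU x))
      (MeromorphicAt.mul (f := fun x => 8 * ev pf x ^ 3) (AnalyticAt.meromorphicAt ?_) a5)
      (AnalyticAt.meromorphicAt ?_)
    · fun_prop
    · unfold HH
      fun_prop
  by_contra hne
  rw [← meromorphicOrderAt_eq_top_iff] at hne
  exact hm.meromorphicOrderAt_ne_top_of_isPreconnected (convex_ball 0 1).isPreconnected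
    (mem_ball_zero_iff.2 hq) (Metric.mem_ball_self one_pos) hne
    (meromorphicOrderAt_eq_top_iff.2 (near_cusp g2 g3))

omit g2 g3 in
/-- the Eichler integral on the upper half plane -/
noncomputable def uu (z : ℂ) : ℂ := ev pU (qq z)

omit g2 g3 in
theorem uu_der {z : ℂ} (hz : 0 < z.im) : HasDerivAt uu (2 * π * I * Fc Th3 z) z := by
  have h := conv_pU.hasDerivAt hz
  rw [th_pU] at h
  rw [(F_form' T3).eq_ev hz]
  exact h

theorem half_ident {z : ℂ} (hz : 0 < z.im) : ∀ᶠ x in 𝓝[≠] z,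
    8 * Fc Th3 x ^ 3 * L.weierstrassP (uu x) =
      HH (Fc Th3 x) (ec x) (dv (fun n => (an r3 n : ℂ)) x) (dv (fun n => (cE n : ℂ)) x) := by
  have h1 := ((hasDerivAt_qq z).tendsto_nhdsNE
    (mul_ne_zero two_pi_I_ne (Complex.exp_ne_zero _))).eventually (disc_ident g2 g3 (norm_qq_lt hz))
  filter_upwards [h1, (eventually_im hz).filter_mono nhdsWithin_le_nhds] with x h2 h3
  rw [(F_form' T3).eq_ev h3, ec_form.eq_ev h3]
  exact sub_eq_zero.1 h2

omit g2 g3 in
theorem const_of {G : ℂ → ℂ} (h : ∀ z : ℂ, 0 < z.im → HasDerivAt G 0 z) {z w : ℂ} (hz : 0 < z.im)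
    (hw : 0 < w.im) : G z = G w :=
  IsOpen.is_const_of_deriv_eq_zero (s := {z : ℂ | 0 < z.im})
    (isOpen_lt continuous_const Complex.continuous_im) (convex_halfSpace_im_gt 0).isPreconnected
    (fun x hx => (h x hx).differentiableAt.differentiableWithinAt) (fun x hx => (h x hx).deriv)
    hz hw

omit g2 g3 in
theorem exists_f_ne : ∃ z : ℂ, 0 < z.im ∧ Fc Th3 z ≠ 0 := by
  obtain ⟨q, ⟨h0, h1⟩, h2⟩ := (ball_ev.and (pF_ne.filter_mono nhdsWithin_le_nhds)).exists
  have h3 := mul_ne_zero h0 h2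
  rw [← ev_pf h1] at h3
  obtain ⟨z, hz, rfl⟩ := exists_qq h0 h1
  exact ⟨z, hz, by rwa [(F_form' T3).eq_ev hz]⟩

/-- the periods of the cusp form lie in the lattice -/
theorem period_mem {a b c d : ℤ} (h : a * d - b * (17 * c) = 1) {z : ℂ} (hz : 0 < z.im) :
    uu ((a * z + b) / ((17 * c : ℤ) * z + d)) - uu z ∈ L.lattice := by
  set lam := uu ((a * z + b) / ((17 * c : ℤ) * z + d)) - uu z with hlam
  have h1 : ∀ w : ℂ, 0 < w.im → uu ((a * w + b) / ((17 * c : ℤ) * w + d)) - uu w = lam := by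
    intro w hw
    refine const_of (G := fun w => uu ((a * w + b) / ((17 * c : ℤ) * w + d)) - uu w)
      (fun x hx => ?_) hw hz
    refine (((uu_der (mob_im h hx)).comp x (mob_deriv h hx)).fun_sub (uu_der hx)).congr_deriv ?_
    rw [(F_form' T3).mob a b c d h x hx]
    have := den_ne h hx
    field_simp
    ring
  obtain ⟨z₁, hz₁, hf⟩ := exists_f_ne
  have h2 := ((mob_deriv h hz₁).tendsto_nhdsNE
    (one_div_ne_zero (pow_ne_zero 2 (den_ne h hz₁)))).eventually (half_ident g2 g3 (mob_im h hz₁))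
  have h3 : ∀ᶠ x in 𝓝 z₁, Fc Th3 x ≠ 0 :=
    ((F_form' T3).hasDeriv hz₁).continuousAt.eventually_ne hf
  have h4 : ∀ᶠ x in 𝓝[≠] z₁, L.weierstrassP (uu x + lam) - L.weierstrassP (uu x) = 0 := by
    filter_upwards [h2, half_ident g2 g3 hz₁, h3.filter_mono nhdsWithin_le_nhds,
      (eventually_im hz₁).filter_mono nhdsWithin_le_nhds] with x e1 e2 e3 e4
    have e5 := bracket_mob ec_form (F_form' T3) h e4
    have e6 := den_ne h e4
    rw [HH, e5, (F_form' T3).mob a b c d h x e4, ec_form.mob a b c d h x e4] at e1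
    rw [← h1 x e4, add_sub_cancel]
    rw [HH] at e2
    apply mul_left_cancel₀ (mul_ne_zero (pow_ne_zero 6 e6) (pow_ne_zero 3 e3))
    linear_combination e1 / 8 - (((17 * c : ℤ) : ℂ) * x + d) ^ 6 / 8 * e2
  have h5 : AnalyticAt ℂ uu z₁ :=
    (ev_analytic conv_pU (norm_qq_lt hz₁)).comp (f := qq) (by unfold qq; fun_prop)
  have h6 : map uu (𝓝 z₁) = 𝓝 (uu z₁) := h5.hasStrictDerivAt.map_nhds_eq (by
    rw [(uu_der hz₁).deriv]
    exact mul_ne_zero two_pi_I_ne hf)
  have h7 : ∀ᶠ w in 𝓝[≠] (uu z₁), L.weierstrassP (w + lam) - L.weierstrassP w = 0 := by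
    rw [eventually_nhdsWithin_iff, ← h6, eventually_map]
    rw [eventually_nhdsWithin_iff] at h4
    filter_upwards [h4] with x hx hx2
    exact hx fun h8 => hx2 (by rw [Set.mem_singleton_iff.1 h8]; rfl)
  have h8 := wp_ident (f := fun w => L.weierstrassP (w + lam) - L.weierstrassP w) (fun x =>
    MeromorphicAt.sub (f := fun w => L.weierstrassP (w + lam))
      ((L.meromorphic_weierstrassP _).comp_analyticAt (g := fun w => w + lam) (by fun_prop))
      (L.meromorphic_weierstrassP x)) (w := 0) h7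
  by_contra hc
  refine wp_not_congr L (zero_mem _) (v := fun w => L.weierstrassP (w + lam))
    (AnalyticAt.comp (g := L.weierstrassP) (f := fun w : ℂ => w + lam) (x := 0)
      (by simpa using wp_analyticAt L hc) (by fun_prop)) ?_
  filter_upwards [h8] with x hx
  exact (sub_eq_zero.1 hx).symm

end Vale.Agent.P014G
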