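import Mathlib

/-!
# P014G: real integrals of `1 / √C` for a cubic `C`
-/

open Set Filter Topology MeasureTheory

namespace Vale.Agent.P014G

/-- a branch of a real solution of `s'² = C(s)` coming from infinity -/
structure Br (s s' C : ℝ → ℝ) (h : ℝ) : Prop where
  pos : 0 < h
  der : ∀ t ∈ Ioo 0 h, HasDerivAt s (s' t) t
  ne : ∀ t ∈ Ioo 0 h, s' t ≠ 0
  sq : ∀ t ∈ Ioo 0 h, s' t ^ 2 = C (s t)
  cont : ContinuousOn s (Ioc 0 h)
  top : Tendsto s (𝓝[>] 0) atTop

namespace Br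

variable {s s' C : ℝ → ℝ} {h : ℝ} (b : Br s s' C h)

include b

theorem mono {h' : ℝ} (h0 : 0 < h') (h1 : h' ≤ h) : Br s s' C h' where
  pos := h0
  der t ht := b.der t ⟨ht.1, ht.2.trans_le h1⟩
  ne t ht := b.ne t ⟨ht.1, ht.2.trans_le h1⟩
  sq t ht := b.sq t ⟨ht.1, ht.2.trans_le h1⟩
  cont := b.cont.mono (Ioc_subset_Ioc_right h1)
  top := b.top

theorem ne_of_lt {x y : ℝ} (hx : x ∈ Ioc 0 h) (hy : y ∈ Ioc 0 h) (hxy : x < y) : s x ≠ s y := by
  intro he
  obtain ⟨c, hc, hc0⟩ := exists_hasDerivAt_eq_zero hxy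
    (b.cont.mono fun t ht => ⟨hx.1.trans_le ht.1, ht.2.trans hy.2⟩) he
    (fun t ht => b.der t ⟨hx.1.trans ht.1, ht.2.trans_le hy.2⟩)
  exact b.ne c ⟨hx.1.trans hc.1, hc.2.trans_le hy.2⟩ hc0

theorem injOn : InjOn s (Ioc 0 h) := by
  intro x hx y hy he
  rcases lt_trichotomy x y with h1 | h1 | h1
  · exact absurd he (b.ne_of_lt hx hy h1)
  · exact h1
  · exact absurd he.symm (b.ne_of_lt hy hx h1)

theorem exists_big {t : ℝ} (ht : 0 < t) (y : ℝ) : ∃ u ∈ Ioo 0 t, y < s u := by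
  have h1 := b.top.eventually (eventually_gt_atTop y)
  have h2 : ∀ᶠ u in 𝓝[>] (0 : ℝ), u ∈ Ioo 0 t := Ioo_mem_nhdsGT ht
  obtain ⟨u, h3, h4⟩ := (h2.and h1).exists
  exact ⟨u, h3, h4⟩

theorem image : s '' Ioo 0 h = Ioi (s h) := by
  ext y
  constructor
  · rintro ⟨t, ht, rfl⟩
    by_contra hc
    have h1 : s t ≤ s h := not_lt.1 hc
    obtain ⟨u, hu, hu1⟩ := b.exists_big ht.1 (s h)
    obtain ⟨w, hw, hw1⟩ := intermediate_value_Icc' hu.2.le
      (b.cont.mono fun x hx => ⟨hu.1.trans_le hx.1, hx.2.trans ht.2.le⟩) ⟨h1, hu1.le⟩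
    exact b.ne_of_lt ⟨hu.1.trans_le hw.1, hw.2.trans ht.2.le⟩ ⟨b.pos, le_rfl⟩
      (hw.2.trans_lt ht.2) hw1
  · intro hy
    obtain ⟨u, hu, hu1⟩ := b.exists_big b.pos y
    obtain ⟨w, hw, hw1⟩ := intermediate_value_Icc' hu.2.le
      (b.cont.mono fun x hx => ⟨hu.1.trans_le hx.1, hx.2⟩) ⟨le_of_lt hy, hu1.le⟩
    refine ⟨w, ⟨hu.1.trans_le hw.1, lt_of_le_of_ne hw.2 ?_⟩, hw1⟩
    rintro rfl
    exact absurd hw1 (_root_.ne_of_lt hy)

theorem le_of_mem {t : ℝ} (ht : t ∈ Ioc 0 h) : s h ≤ s t := by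
  rcases ht.2.eq_or_lt with rfl | h1
  · exact le_rfl
  · have : s t ∈ Ioi (s h) := b.image ▸ mem_image_of_mem s ⟨ht.1, h1⟩
    exact le_of_lt this

theorem C_pos {x : ℝ} (hx : s h < x) : 0 < C x := by
  have h1 : x ∈ s '' Ioo 0 h := b.image ▸ hx
  obtain ⟨t, ht, rfl⟩ := h1
  rw [← b.sq t ht]
  have := b.ne t ht
  positivity

theorem one_eq {t : ℝ} (ht : t ∈ Ioo 0 h) : |s' t| • (1 / Real.sqrt (C (s t))) = 1 := by
  rw [← b.sq t ht, Real.sqrt_sq_eq_abs, smul_eq_mul]
  have := abs_ne_zero.2 (b.ne t ht)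
  field_simp

theorem integrableOn : IntegrableOn (fun x => 1 / Real.sqrt (C x)) (Ioi (s h)) := by
  rw [← b.image, integrableOn_image_iff_integrableOn_abs_deriv_smul measurableSet_Ioo
    (fun t ht => (b.der t ht).hasDerivWithinAt) (b.injOn.mono Ioo_subset_Ioc_self)]
  refine (integrableOn_congr_fun (g := fun _ => (1 : ℝ)) (fun t ht => b.one_eq ht)
    measurableSet_Ioo).2 ?_
  exact integrableOn_const (by simp)

theorem integral : ∫ x in Ioi (s h), 1 / Real.sqrt (C x) = h := by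
  rw [← b.image, integral_image_eq_integral_abs_deriv_smul measurableSet_Ioo
    (fun t ht => (b.der t ht).hasDerivWithinAt) (b.injOn.mono Ioo_subset_Ioc_self),
    setIntegral_congr_fun (g := fun _ => (1 : ℝ)) measurableSet_Ioo (fun t ht => b.one_eq ht)]
  simp [b.pos.le]

end Br

/-- the cubic with roots `r, a, b` -/
def cub (r a b x : ℝ) : ℝ := 4 * (x - r) * (x - a) * (x - b)

/-- translation by the point of order two with abscissa `r` -/
noncomputable def mob (r a b x : ℝ) : ℝ := r + (r - a) * (r - b) / (x - r)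

section

variable {r a b : ℝ} (hc : (r - a) * (r - b) ≠ 0) {S : Set ℝ} (hS : MeasurableSet S) (hr : r ∉ S)

include hr in
theorem mob_der {x : ℝ} (hx : x ∈ S) :
    HasDerivWithinAt (mob r a b) (-((r - a) * (r - b)) / (x - r) ^ 2) S x := by
  have h0 : x - r ≠ 0 := sub_ne_zero.2 fun h => hr (h ▸ hx)
  have h1 := (((hasDerivAt_const x ((r - a) * (r - b))).fun_div ((hasDerivAt_id' x).sub_const r)
    h0).const_add r)
  refine (h1.congr_deriv ?_).hasDerivWithinAt
  ring

include hc hr in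
theorem mob_inj : InjOn (mob r a b) S := by
  intro x hx y hy h
  have h0 : x - r ≠ 0 := sub_ne_zero.2 fun h => hr (h ▸ hx)
  have h1 : y - r ≠ 0 := sub_ne_zero.2 fun h => hr (h ▸ hy)
  unfold mob at h
  have h2 := add_left_cancel h
  rw [div_eq_div_iff h0 h1] at h2
  have := mul_left_cancel₀ hc h2
  linarith

include hc hr in
theorem mob_eq {x : ℝ} (hx : x ∈ S) :
    |-((r - a) * (r - b)) / (x - r) ^ 2| • (1 / Real.sqrt (cub r a b (mob r a b x))) =
      1 / Real.sqrt (cub r a b x) := by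
  have h0 : x - r ≠ 0 := sub_ne_zero.2 fun h => hr (h ▸ hx)
  have h1 : cub r a b (mob r a b x) = (-((r - a) * (r - b)) / (x - r) ^ 2) ^ 2 * cub r a b x := by
    unfold cub mob
    field_simp
    ring
  have h2 : |-((r - a) * (r - b)) / (x - r) ^ 2| ≠ 0 :=
    abs_ne_zero.2 (div_ne_zero (neg_ne_zero.2 hc) (pow_ne_zero 2 h0))
  rw [h1, Real.sqrt_mul (sq_nonneg _), Real.sqrt_sq_eq_abs, smul_eq_mul]
  generalize |-((r - a) * (r - b)) / (x - r) ^ 2| = u at *
  rcases eq_or_ne (Real.sqrt (cub r a b x)) 0 with h3 | h3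
  · simp [h3]
  · field_simp

include hc hS hr in
theorem mob_integrable : IntegrableOn (fun x => 1 / Real.sqrt (cub r a b x)) (mob r a b '' S) ↔
    IntegrableOn (fun x => 1 / Real.sqrt (cub r a b x)) S := by
  rw [integrableOn_image_iff_integrableOn_abs_deriv_smul hS (fun x hx => mob_der hr hx)
    (mob_inj hc hr)]
  exact integrableOn_congr_fun (fun x hx => mob_eq hc hr hx) hS

include hc hS hr in
theorem mob_integral : ∫ x in mob r a b '' S, 1 / Real.sqrt (cub r a b x) =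
    ∫ x in S, 1 / Real.sqrt (cub r a b x) := by
  rw [integral_image_eq_integral_abs_deriv_smul hS (fun x hx => mob_der hr hx) (mob_inj hc hr)]
  exact setIntegral_congr_fun hS (fun x hx => mob_eq hc hr hx)

end

theorem mob_image {r a b y : ℝ} (hc : 0 < (r - a) * (r - b)) (hy : r < y) :
    mob r a b '' Ioi y = Ioo r (mob r a b y) := by
  have hy' : 0 < y - r := sub_pos.2 hy
  ext z
  constructor
  · rintro ⟨x, hx, rfl⟩
    have hx' : 0 < x - r := sub_pos.2 (hy.trans hx)
    unfold mob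
    refine ⟨lt_add_of_pos_right _ (div_pos hc hx'), ?_⟩
    have : (r - a) * (r - b) / (x - r) < (r - a) * (r - b) / (y - r) :=
      div_lt_div_of_pos_left hc hy' (by have : y < x := hx; linarith)
    linarith
  · rintro ⟨h1, h2⟩
    have hz : 0 < z - r := sub_pos.2 h1
    refine ⟨r + (r - a) * (r - b) / (z - r), ?_, ?_⟩
    · unfold mob at h2
      have h3 : z - r < (r - a) * (r - b) / (y - r) := by linarith
      rw [lt_div_iff₀ hy'] at h3
      have h4 : y - r < (r - a) * (r - b) / (z - r) := by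
        rw [lt_div_iff₀ hz]
        linarith
      change y < _
      linarith
    · unfold mob
      have := hc.ne'
      rw [add_sub_cancel_left]
      generalize (r - a) * (r - b) = c at *
      field_simp
      ring

section

variable {e₁ e₂ e₃ : ℝ} (h32 : e₃ < e₂) (h21 : e₂ < e₁)

theorem cub_comm (x : ℝ) : cub e₃ e₁ e₂ x = cub e₁ e₂ e₃ x := by
  unfold cub
  ring

include h32 h21

theorem mob_e : mob e₃ e₁ e₂ '' Ioi e₁ = Ioo e₃ e₂ := by
  rw [mob_image (mul_pos_of_neg_of_neg (by linarith) (by linarith)) (by linarith)]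
  congr 1
  unfold mob
  have : e₁ - e₃ ≠ 0 := by linarith
  field_simp
  ring

theorem oval_integrable (h : IntegrableOn (fun x => 1 / Real.sqrt (cub e₁ e₂ e₃ x)) (Ioi e₁)) :
    IntegrableOn (fun x => 1 / Real.sqrt (cub e₁ e₂ e₃ x)) (Ioo e₃ e₂) := by
  have := (mob_integrable (r := e₃) (a := e₁) (b := e₂) (S := Ioi e₁)
    (mul_pos_of_neg_of_neg (by linarith) (by linarith)).ne' measurableSet_Ioi
    (by simp only [mem_Ioi]; linarith))
  rw [mob_e h32 h21] at this
  simp only [cub_comm] at this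
  exact this.2 h

theorem oval_integral : ∫ x in Ioo e₃ e₂, 1 / Real.sqrt (cub e₁ e₂ e₃ x) =
    ∫ x in Ioi e₁, 1 / Real.sqrt (cub e₁ e₂ e₃ x) := by
  have := (mob_integral (r := e₃) (a := e₁) (b := e₂) (S := Ioi e₁)
    (mul_pos_of_neg_of_neg (by linarith) (by linarith)).ne' measurableSet_Ioi
    (by simp only [mem_Ioi]; linarith))
  rw [mob_e h32 h21] at this
  simpa only [cub_comm] using this

theorem cub_pos_set : {x | 0 < cub e₁ e₂ e₃ x} = Ioo e₃ e₂ ∪ Ioi e₁ := by
  ext x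
  simp only [mem_ofPred_eq, mem_union, mem_Ioo, mem_Ioi, cub]
  constructor
  · intro h
    by_contra hc
    push Not at hc
    obtain ⟨h1, h2⟩ := hc
    rcases le_or_gt x e₃ with h3 | h3
    · have : 0 ≤ (x - e₁) * (x - e₂) := mul_nonneg_of_nonpos_of_nonpos (by linarith) (by linarith)
      nlinarith
    · have h4 := h1 h3
      have : 0 ≤ (x - e₂) * (x - e₃) := mul_nonneg (by linarith) (by linarith)
      nlinarith
  · rintro (⟨h1, h2⟩ | h)
    · have : 0 < (x - e₁) * (x - e₂) := mul_pos_of_neg_of_neg (by linarith) (by linarith)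
      nlinarith
    · have : 0 < (x - e₂) * (x - e₃) := mul_pos (by linarith) (by linarith)
      nlinarith

/-- the integral over all real components -/
theorem full_integral (h : IntegrableOn (fun x => 1 / Real.sqrt (cub e₁ e₂ e₃ x)) (Ioi e₁)) :
    ∫ x in {x | 0 < cub e₁ e₂ e₃ x}, 1 / Real.sqrt (cub e₁ e₂ e₃ x) =
      2 * ∫ x in Ioi e₁, 1 / Real.sqrt (cub e₁ e₂ e₃ x) := by
  rw [cub_pos_set h32 h21, setIntegral_union _ measurableSet_Ioi (oval_integrable h32 h21 h) h,
    oval_integral h32 h21]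
  · ring
  · rw [disjoint_left]
    intro x h1 h2
    have := h1.2
    have : e₁ < x := h2
    linarith

/-- the point of order four halves the integral -/
theorem half_integral (h : IntegrableOn (fun x => 1 / Real.sqrt (cub e₁ e₂ e₃ x)) (Ioi e₁))
    {y : ℝ} (hy : e₁ < y) (hy2 : (y - e₁) ^ 2 = (e₁ - e₂) * (e₁ - e₃)) :
    2 * ∫ x in Ioi y, 1 / Real.sqrt (cub e₁ e₂ e₃ x) =
      ∫ x in Ioi e₁, 1 / Real.sqrt (cub e₁ e₂ e₃ x) := by
  have hc : 0 < (e₁ - e₂) * (e₁ - e₃) := mul_pos (by linarith) (by linarith)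
  have h1 := mob_integral (r := e₁) (a := e₂) (b := e₃) (S := Ioi y) hc.ne' measurableSet_Ioi
    (by simp only [mem_Ioi]; linarith)
  have h2 : mob e₁ e₂ e₃ y = y := by
    unfold mob
    have : y - e₁ ≠ 0 := by linarith
    rw [← hy2]
    field_simp
    ring
  rw [mob_image hc hy, h2] at h1
  have h3 : Ioi e₁ = Ioc e₁ y ∪ Ioi y := (Ioc_union_Ioi_eq_Ioi hy.le).symm
  rw [h3, setIntegral_union (Ioc_disjoint_Ioi le_rfl) measurableSet_Ioi
    (h.mono_set Ioc_subset_Ioi_self) (h.mono_set (Ioi_subset_Ioi hy.le)),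
    integral_Ioc_eq_integral_Ioo, h1]
  ring

end

/-- affine change of variable -/
theorem affine_integral (C : ℝ → ℝ) (hC : Continuous C) {d : ℝ} (hd : 0 < d) (a : ℝ) (P : ℝ → ℝ)
    (hP : ∀ s, P (d * (s + a)) = d ^ 3 * C s) :
    ∫ x in {x | 0 < P x}, 2 / Real.sqrt (P x) =
      2 / Real.sqrt d * ∫ s in {s | 0 < C s}, 1 / Real.sqrt (C s) := by
  have hm : MeasurableSet {s | 0 < C s} := (isOpen_lt continuous_const hC).measurableSet
  have h1 : {x | 0 < P x} = (fun s => d * (s + a)) '' {s | 0 < C s} := by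
    ext x
    constructor
    · intro hx
      have h2 : d * (x / d - a + a) = x := by field_simp; ring
      refine ⟨x / d - a, ?_, h2⟩
      have h3 := hP (x / d - a)
      rw [h2] at h3
      have h4 : 0 < d ^ 3 * C (x / d - a) := h3 ▸ hx
      exact (mul_pos_iff_of_pos_left (by positivity)).1 h4
    · rintro ⟨s, hs, rfl⟩
      change 0 < P _
      rw [hP]
      exact mul_pos (by positivity) hs
  rw [h1, integral_image_eq_integral_abs_deriv_smul (f' := fun _ => d) hm
    (fun s _ => by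
      simpa using (((hasDerivAt_id' s).add_const a).const_mul d).hasDerivWithinAt)
    (fun x _ y _ h => by
      have := mul_left_cancel₀ hd.ne' h
      linarith), ← integral_const_mul]
  refine setIntegral_congr_fun hm fun s hs => ?_
  have h2 : 0 < C s := hs
  have h3 : Real.sqrt (d ^ 3 * C s) = d * Real.sqrt d * Real.sqrt (C s) := by
    rw [Real.sqrt_mul (by positivity), show d ^ 3 = d ^ 2 * d by ring,
      Real.sqrt_mul (by positivity), Real.sqrt_sq hd.le]
  have h4 := Real.sqrt_pos.2 hd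
  have h5 := Real.sqrt_pos.2 h2
  simp only [hP, h3, abs_of_pos hd, smul_eq_mul]
  field_simp

end Vale.Agent.P014G
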