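import Vale.Agent.P014G.Uni
import Vale.Agent.P014G.Br

/-!
# P014G: the Weierstrass function of a real lattice on the two axes
-/

open Complex Filter Topology Set
open scoped ComplexConjugate

namespace Vale.Agent.P014G

open Vale.Agent.P010.H193

variable {L : PeriodPair}

/-- the direction `κ` is `1` or `i`, and `ε = κ²` -/
def Dir (κ : ℂ) (ε : ℝ) : Prop := (κ = 1 ∧ ε = 1) ∨ (κ = I ∧ ε = -1)

theorem Dir.sq {κ : ℂ} {ε : ℝ} (h : Dir κ ε) : κ ^ 2 = ε := by
  rcases h with ⟨rfl, rfl⟩ | ⟨rfl, rfl⟩ <;> simp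

theorem Dir.esq {κ : ℂ} {ε : ℝ} (h : Dir κ ε) : ε ^ 2 = 1 := by
  rcases h with ⟨rfl, rfl⟩ | ⟨rfl, rfl⟩ <;> simp

theorem Dir.ne {κ : ℂ} {ε : ℝ} (h : Dir κ ε) : κ ≠ 0 := by
  rcases h with ⟨rfl, rfl⟩ | ⟨rfl, rfl⟩ <;> simp

theorem Dir.norm {κ : ℂ} {ε : ℝ} (h : Dir κ ε) : ‖κ‖ = 1 := by
  rcases h with ⟨rfl, rfl⟩ | ⟨rfl, rfl⟩ <;> simp

theorem two_re_mem (hL : IsReal L) {l : ℂ} (hl : l ∈ L.lattice) :
    (1 : ℂ) * ((2 * l.re : ℝ) : ℂ) ∈ L.lattice := by
  have := add_mem hl (hL.conj_mem hl)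
  rw [Complex.add_conj] at this
  simpa using this

theorem two_im_mem (hL : IsReal L) {l : ℂ} (hl : l ∈ L.lattice) :
    I * ((2 * l.im : ℝ) : ℂ) ∈ L.lattice := by
  have := sub_mem hl (hL.conj_mem hl)
  rw [Complex.sub_conj] at this
  rwa [mul_comm]

theorem exists_ne (hL : IsReal L) {κ : ℂ} {ε : ℝ} (h : Dir κ ε) :
    ∃ t : ℝ, t ≠ 0 ∧ κ * t ∈ L.lattice := by
  by_contra hc
  push Not at hc
  have hi := LinearIndependent.pair_iff.1 L.indep
  rcases h with ⟨rfl, -⟩ | ⟨rfl, -⟩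
  · have h1 : L.ω₁.re = 0 := by
      by_contra h1
      exact hc _ (mul_ne_zero two_ne_zero h1) (two_re_mem hL L.ω₁_mem_lattice)
    have h2 : L.ω₂.re = 0 := by
      by_contra h1
      exact hc _ (mul_ne_zero two_ne_zero h1) (two_re_mem hL L.ω₂_mem_lattice)
    have h3 := hi L.ω₂.im (-L.ω₁.im) (by
      apply Complex.ext <;> simp [h1, h2, mul_comm])
    have h4 := hi 1 0 (by
      apply Complex.ext
      · simp [h1]
      · simpa using h3.2)
    exact one_ne_zero h4.1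
  · have h1 : L.ω₁.im = 0 := by
      by_contra h1
      exact hc _ (mul_ne_zero two_ne_zero h1) (two_im_mem hL L.ω₁_mem_lattice)
    have h2 : L.ω₂.im = 0 := by
      by_contra h1
      exact hc _ (mul_ne_zero two_ne_zero h1) (two_im_mem hL L.ω₂_mem_lattice)
    have h3 := hi L.ω₂.re (-L.ω₁.re) (by
      apply Complex.ext <;> simp [h1, h2, mul_comm])
    have h4 := hi 1 0 (by
      apply Complex.ext
      · simpa using h3.2
      · simp [h1])
    exact one_ne_zero h4.1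

/-- `ω` generates the lattice points on the axis of direction `κ` -/
structure Gen (L : PeriodPair) (κ : ℂ) (ω : ℝ) : Prop where
  pos : 0 < ω
  mem : ∀ t : ℝ, κ * t ∈ L.lattice ↔ ∃ n : ℤ, t = n * ω

theorem exists_gen (hL : IsReal L) {κ : ℂ} {ε : ℝ} (h : Dir κ ε) : ∃ ω, Gen L κ ω := by
  let S : AddSubgroup ℝ :=
    { carrier := {t | κ * t ∈ L.lattice}
      zero_mem' := by simp
      add_mem' := fun {a b} ha hb => by
        have := add_mem (show κ * (a : ℂ) ∈ L.lattice from ha)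
          (show κ * (b : ℂ) ∈ L.lattice from hb)
        simpa [mul_add] using this
      neg_mem' := fun {a} ha => by
        have := neg_mem (show κ * (a : ℂ) ∈ L.lattice from ha)
        simpa using this }
  obtain ⟨r, hr, hr'⟩ := Metric.mem_nhds_iff.1 (L.compl_lattice_sdiff_singleton_mem_nhds 0)
  obtain ⟨b, hb⟩ := AddSubgroup.cyclic_of_isolated_zero (H := S) hr (by
    rw [disjoint_left]
    intro t ht ht2
    have h1 : κ * t ∈ Metric.ball (0 : ℂ) r := by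
      rw [mem_ball_zero_iff, norm_mul, h.norm, one_mul, Complex.norm_real, Real.norm_eq_abs,
        abs_of_pos ht2.1]
      exact ht2.2
    refine hr' h1 ⟨ht, ?_⟩
    exact mul_ne_zero h.ne (by exact_mod_cast ht2.1.ne'))
  have hS : ∀ t : ℝ, κ * t ∈ L.lattice ↔ ∃ n : ℤ, n * b = t := by
    intro t
    change t ∈ S ↔ _
    rw [hb, AddSubgroup.mem_closure_singleton]
    simp only [zsmul_eq_mul]
  obtain ⟨t, ht0, ht⟩ := exists_ne hL h
  have hb0 : b ≠ 0 := by
    rintro rfl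
    obtain ⟨n, hn⟩ := (hS t).1 ht
    exact ht0 (by simpa using hn.symm)
  refine ⟨|b|, abs_pos.2 hb0, fun t => (hS t).trans ?_⟩
  rcases abs_choice b with h1 | h1 <;> rw [h1]
  · exact ⟨fun ⟨n, hn⟩ => ⟨n, hn.symm⟩, fun ⟨n, hn⟩ => ⟨n, hn.symm⟩⟩
  · exact ⟨fun ⟨n, hn⟩ => ⟨-n, by push_cast; linarith⟩, fun ⟨n, hn⟩ => ⟨-n, by push_cast; linarith⟩⟩

/-- the real function `± ℘` on the axis -/
noncomputable def sx (L : PeriodPair) (κ : ℂ) (ε t : ℝ) : ℝ := ε * (L.weierstrassP (κ * t)).re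

/-- its derivative -/
noncomputable def sx' (L : PeriodPair) (κ : ℂ) (ε t : ℝ) : ℝ :=
  ε * (κ * L.derivWeierstrassP (κ * t)).re

/-- the cubic on the axis -/
noncomputable def cx (L : PeriodPair) (ε x : ℝ) : ℝ := 4 * x ^ 3 - L.g₂.re * x - ε * L.g₃.re

section

variable (hL : IsReal L) {κ : ℂ} {ε : ℝ} (h : Dir κ ε)

include hL h

theorem wp_real (t : ℝ) : L.weierstrassP (κ * t) = ((L.weierstrassP (κ * t)).re : ℂ) := by
  refine (Complex.conj_eq_iff_re.1 ?_).symm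
  rw [← hL.wp_conj]
  rcases h with ⟨rfl, -⟩ | ⟨rfl, -⟩
  · simp
  · simp

theorem wp_sx (t : ℝ) : L.weierstrassP (κ * t) = ε * sx L κ ε t := by
  have h1 : (ε : ℂ) ^ 2 = 1 := by exact_mod_cast h.esq
  rw [sx]
  push_cast
  rw [← wp_real hL h]
  linear_combination (-L.weierstrassP (κ * t)) * h1

omit hL h in
theorem der_axis {t : ℝ} (ht : κ * t ∉ L.lattice) :
    HasDerivAt (fun z : ℂ => L.weierstrassP (κ * z)) (κ * L.derivWeierstrassP (κ * t)) t := by
  have h1 := (wp_hasDerivAt L ht).comp (t : ℂ) ((hasDerivAt_id' (t : ℂ)).const_mul κ)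
  refine HasDerivAt.congr_deriv h1 ?_
  ring

theorem der_real {t : ℝ} (ht : κ * t ∉ L.lattice) :
    κ * L.derivWeierstrassP (κ * t) = ((κ * L.derivWeierstrassP (κ * t)).re : ℂ) := by
  have h1 := (der_axis ht).comp_ofReal
  have h2 := (der_axis ht).real_of_complex.ofReal_comp
  have h3 : (fun y : ℝ => L.weierstrassP (κ * y)) =
      fun y : ℝ => ((L.weierstrassP (κ * y)).re : ℂ) := funext fun y => wp_real hL h y
  rw [h3] at h1
  exact h1.unique h2

omit hL h in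
theorem sx_der {t : ℝ} (ht : κ * t ∉ L.lattice) : HasDerivAt (sx L κ ε) (sx' L κ ε t) t :=
  (der_axis ht).real_of_complex.const_mul ε

theorem sx_sq {t : ℝ} (ht : κ * t ∉ L.lattice) : sx' L κ ε t ^ 2 = cx L ε (sx L κ ε t) := by
  have h1 := L.derivWeierstrassP_sq _ ht
  have h2 : (ε : ℂ) ^ 2 = 1 := by exact_mod_cast h.esq
  have h3 := h.sq
  have g2 := Complex.conj_eq_iff_re.1 hL.g2
  have g3 := Complex.conj_eq_iff_re.1 hL.g3
  apply Complex.ofReal_injective
  rw [sx', cx]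
  push_cast
  rw [← der_real hL h ht, g2, g3]
  rw [wp_sx hL h t] at h1
  generalize (sx L κ ε t : ℂ) = s at *
  generalize L.derivWeierstrassP (κ * t) = d at *
  linear_combination (ε : ℂ) ^ 2 * d ^ 2 * h3 + (ε : ℂ) ^ 3 * h1 +
    (4 * s ^ 3 * (ε ^ 4 + ε ^ 2 + 1) - L.g₂ * s * (ε ^ 2 + 1) - ε * L.g₃) * h2

theorem sx'_eq_zero {t : ℝ} (ht : κ * t ∉ L.lattice) :
    sx' L κ ε t = 0 ↔ κ * ((2 * t : ℝ) : ℂ) ∈ L.lattice := by
  have h1 : κ * ((2 * t : ℝ) : ℂ) = 2 * (κ * t) := by push_cast; ring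
  have h2 : ε ≠ 0 := by
    intro h3
    have := h.esq
    rw [h3] at this
    norm_num at this
  rw [h1, ← wp_deriv_eq_zero_iff L ht, sx', mul_eq_zero, or_iff_right h2, ← Complex.ofReal_eq_zero,
    ← der_real hL h ht, mul_eq_zero, or_iff_right h.ne]

omit hL in
theorem sx_top : Tendsto (sx L κ ε) (𝓝[>] 0) atTop := by
  have h1 : Tendsto (fun t : ℝ => (pa L (κ * t)).re) (𝓝[>] 0) (𝓝 1) := by
    have h2 : ContinuousAt (fun t : ℝ => (pa L (κ * t)).re) 0 := by
      have h3 : ContinuousAt (pa L) (κ * ((0 : ℝ) : ℂ)) := by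
        simpa using (pa_analytic L).continuousAt
      exact Complex.continuous_re.continuousAt.comp
        (ContinuousAt.comp (f := fun t : ℝ => κ * (t : ℂ)) h3 (by fun_prop))
    have h4 := h2.tendsto.mono_left (nhdsWithin_le_nhds (s := Ioi 0))
    simpa [pa_zero] using h4
  have h2 : Tendsto (fun t : ℝ => (t ^ 2)⁻¹) (𝓝[>] 0) atTop := by
    simpa only [inv_pow, Function.comp_def] using
      (tendsto_pow_atTop (two_ne_zero)).comp (tendsto_inv_nhdsGT_zero (𝕜 := ℝ))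
  refine (h1.pos_mul_atTop one_pos h2).congr' ?_
  filter_upwards [self_mem_nhdsWithin] with t (ht : 0 < t)
  have ht0 : (t : ℂ) ≠ 0 := by exact_mod_cast ht.ne'
  rw [pa_eq L (mul_ne_zero h.ne ht0), mul_pow, h.sq, sx]
  have : (ε : ℂ) * (t : ℂ) ^ 2 = ((ε * t ^ 2 : ℝ) : ℂ) := by push_cast; ring
  rw [this, Complex.re_ofReal_mul]
  field_simp

variable {ω : ℝ} (g : Gen L κ ω)

omit hL h in
include g in
theorem Gen.notMem {t : ℝ} (h0 : 0 < t) (h1 : t < ω) : κ * t ∉ L.lattice := by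
  rw [g.mem]
  rintro ⟨n, rfl⟩
  have h2 : (0 : ℝ) < n := (mul_pos_iff_of_pos_right g.pos).1 h0
  have h3 : (n : ℝ) < 1 := by
    have := g.pos
    nlinarith
  have h4 : 0 < n := by exact_mod_cast h2
  have h5 : n < 1 := by exact_mod_cast h3
  omega

include g in
theorem Gen.br : Br (sx L κ ε) (sx' L κ ε) (cx L ε) (ω / 2) where
  pos := half_pos g.pos
  der t ht := sx_der (g.notMem ht.1 (by linarith [ht.2, g.pos]))
  ne t ht := by
    rw [Ne, sx'_eq_zero hL h (g.notMem ht.1 (by linarith [ht.2, g.pos]))]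
    exact g.notMem (by linarith [ht.1]) (by linarith [ht.2])
  sq t ht := sx_sq hL h (g.notMem ht.1 (by linarith [ht.2, g.pos]))
  cont t ht := (sx_der (g.notMem ht.1 (by linarith [ht.2, g.pos]))).continuousAt.continuousWithinAt
  top := sx_top h

include g in
theorem Gen.root : cx L ε (sx L κ ε (ω / 2)) = 0 := by
  have h1 := g.notMem (half_pos g.pos) (half_lt_self g.pos)
  rw [← sx_sq hL h h1, (sx'_eq_zero hL h h1).2 ((g.mem _).2 ⟨1, by push_cast; ring⟩)]
  ring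

end

end Vale.Agent.P014G
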