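import Mathlib

/-!
# P014G: a lattice with prescribed invariants `g₂`, `g₃`
-/

open Complex
open UpperHalfPlane hiding I
open ModularForm Filter Asymptotics EisensteinSeries
open scoped Real MatrixGroups ModularForm Topology Manifold

namespace Vale.Agent.P014G

/-- the lattice spanned by `c τ` and `c` -/
noncomputable def mkPP (c : ℂ) (hc : c ≠ 0) (τ : ℍ) : PeriodPair where
  ω₁ := c * τ
  ω₂ := c
  indep := by
    rw [LinearIndependent.pair_iff]
    intro s t h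
    have h1 : (s : ℂ) * τ + t = 0 := by
      apply mul_left_cancel₀ hc
      simp only [Complex.real_smul] at h
      linear_combination h
    have h2 := congrArg Complex.im h1
    have h3 := τ.im_pos
    simp at h2
    rcases h2 with h2 | h2
    · subst h2
      simpa using h1
    · exact absurd h2 h3.ne'

theorem G_mk (c : ℂ) (hc : c ≠ 0) (τ : ℍ) {k : ℕ} (hk : 3 ≤ k) :
    (mkPP c hc τ).G k = (c ^ k)⁻¹ * (2 * riemannZeta k * E hk τ) := by
  have h1 := tsum_eisSummand_eq_riemannZeta_mul_eisensteinSeries hk τ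
  have h2 : E hk τ = (1 / 2 : ℂ) * eisensteinSeries (N := 1) 0 k τ := rfl
  have h3 : 2 * riemannZeta k * E hk τ = ∑' v : Fin 2 → ℤ, eisSummand k v τ := by
    rw [h1, h2]; ring
  rw [h3, ← tsum_mul_left, PeriodPair.G,
    ← (mkPP c hc τ).latticeEquivProd.symm.toEquiv.tsum_eq,
    ← (finTwoArrowEquiv ℤ).symm.tsum_eq]
  refine tsum_congr fun x => ?_
  have h4 := (mkPP c hc τ).latticeEquiv_symm_apply x
  simp only [LinearEquiv.coe_toEquiv, h4]
  simp only [mkPP, eisSummand, finTwoArrowEquiv_symm_apply, Matrix.cons_val_zero,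
    Matrix.cons_val_one, zpow_neg, zpow_natCast]
  rw [← mul_inv, ← mul_pow]
  congr 2
  ring

theorem zeta_six : riemannZeta 6 = π ^ 6 / 945 := by
  have h := riemannZeta_two_mul_nat (k := 3) (by norm_num)
  have hb : bernoulli (2 * 3) = 1 / 42 := by
    rw [bernoulli_eq_bernoulli'_of_ne_one (by norm_num)]
    have h5 : bernoulli' 5 = 0 := bernoulli'_eq_zero_of_odd (by decide) (by norm_num)
    have : bernoulli' 6 = 1 / 42 := by
      rw [bernoulli'_def]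
      norm_num [Finset.sum_range_succ, Nat.choose, h5]
    exact this
  rw [hb] at h
  norm_num [Nat.factorial] at h
  rw [h]
  ring

theorem g2_mk (c : ℂ) (hc : c ≠ 0) (τ : ℍ) :
    (mkPP c hc τ).g₂ = (c ^ 4)⁻¹ * (4 * π ^ 4 / 3 * E₄ τ) := by
  rw [PeriodPair.g₂, G_mk c hc τ (by norm_num : 3 ≤ 4)]
  have : riemannZeta ((4 : ℕ) : ℂ) = π ^ 4 / 90 := by
    simpa using riemannZeta_four
  rw [this]
  ring

theorem g3_mk (c : ℂ) (hc : c ≠ 0) (τ : ℍ) :
    (mkPP c hc τ).g₃ = (c ^ 6)⁻¹ * (8 * π ^ 6 / 27 * E₆ τ) := by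
  rw [PeriodPair.g₃, G_mk c hc τ (by norm_num : 3 ≤ 6)]
  have : riemannZeta ((6 : ℕ) : ℂ) = π ^ 6 / 945 := by
    simpa using zeta_six
  rw [this]
  ring

theorem tendsto_E {k : ℕ} (hk : 3 ≤ k) (hk2 : Even k) :
    Tendsto (E hk : ℍ → ℂ) atImInfty (𝓝 1) := by
  obtain ⟨c, hc, h⟩ := ModularFormClass.exp_decay_sub_atImInfty' (E hk)
  have h0 : valueAtInfty (E hk : ℍ → ℂ) = 1 := by
    rw [← qExpansion_coeff_zero one_pos (ModularFormClass.analyticAt_cuspFunction_zero (E hk)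
      one_pos one_mem_strictPeriods_SL)
      (SlashInvariantFormClass.periodic_comp_ofComplex (E hk)
        one_mem_strictPeriods_SL)]
    exact E_qExpansion_coeff_zero hk hk2
  rw [h0] at h
  have h1 : Tendsto (fun τ : ℍ => Real.exp (-c * τ.im)) atImInfty (𝓝 0) := by
    refine Real.tendsto_exp_atBot.comp ?_
    exact (tendsto_const_mul_atBot_of_neg (by linarith)).2 tendsto_comap
  have h2 := (h.trans_tendsto h1).add_const 1
  simpa using h2

theorem exists_tau {α β : ℂ} (h : α ≠ β) : ∃ τ : ℍ, α * E₄ τ ^ 3 = β * E₆ τ ^ 2 := by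
  by_contra hne
  push Not at hne
  have hne' : ∀ τ : ℍ, α * E₄ τ ^ 3 - β * E₆ τ ^ 2 ≠ 0 := fun τ => sub_ne_zero.2 (hne τ)
  have hs : ∀ γ : SL(2, ℤ), (fun τ : ℍ => (α * E₄ τ ^ 3 - β * E₆ τ ^ 2)⁻¹) ∣[(-12 : ℤ)] γ =
      fun τ : ℍ => (α * E₄ τ ^ 3 - β * E₆ τ ^ 2)⁻¹ := by
    intro γ
    funext τ
    have hγ : (γ : GL (Fin 2) ℝ) ∈ 𝒮ℒ := ⟨γ, rfl⟩
    have h4 : E₄ (γ • τ) = _ := SlashInvariantForm.slash_action_eqn'' E₄ hγ τ
    have h6 : E₆ (γ • τ) = _ := SlashInvariantForm.slash_action_eqn'' E₆ hγ τ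
    rw [SL_slash_apply, h4, h6]
    have hd := denom_ne_zero (γ : GL (Fin 2) ℝ) τ
    have h7 := hne' τ
    generalize denom (γ : GL (Fin 2) ℝ) τ = j at *
    simp only [neg_neg, zpow_ofNat]
    have : α * (j ^ 4 * E₄ τ) ^ 3 - β * (j ^ 6 * E₆ τ) ^ 2 =
        j ^ 12 * (α * E₄ τ ^ 3 - β * E₆ τ ^ 2) := by
      ring
    rw [this]
    field_simp
  let g : ModularForm 𝒮ℒ (-12) :=
    { toFun := fun τ : ℍ => (α * E₄ τ ^ 3 - β * E₆ τ ^ 2)⁻¹
      slash_action_eq' := fun _ ⟨γ, hγ⟩ => hγ ▸ hs γ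
      holo' := by
        refine MDifferentiable.inv ?_ hne'
        exact ((E₄.holo'.pow 3).const_smul α).sub ((E₆.holo'.pow 2).const_smul β)
      bdd_at_cusps' := fun {c} hc => by
        rw [Subgroup.IsArithmetic.isCusp_iff_isCusp_SL2Z] at hc
        rw [OnePoint.isBoundedAt_iff_forall_SL2Z hc]
        intro γ _
        rw [hs γ]
        have h1 : Tendsto (fun τ : ℍ => (α * E₄ τ ^ 3 - β * E₆ τ ^ 2)⁻¹) atImInfty
            (𝓝 (α * 1 ^ 3 - β * 1 ^ 2)⁻¹) :=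
          ((((tendsto_E _ ⟨2, rfl⟩).pow 3).const_mul α).sub
            (((tendsto_E _ ⟨3, rfl⟩).pow 2).const_mul β)).inv₀ (by simpa using sub_ne_zero.2 h)
        exact h1.isBigO_one ℝ }
  have h0 := ModularFormClass.levelOne_neg_weight_eq_zero (by norm_num : (-12 : ℤ) < 0) g
  have h1 := congrFun h0 UpperHalfPlane.I
  exact inv_ne_zero (hne' UpperHalfPlane.I) h1

/-- **existence of a lattice with prescribed invariants** -/
theorem exists_lattice {g2 g3 : ℂ} (h2 : g2 ≠ 0) (h3 : g3 ≠ 0) (hd : g2 ^ 3 ≠ 27 * g3 ^ 2) :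
    ∃ L : PeriodPair, L.g₂ = g2 ∧ L.g₃ = g3 := by
  obtain ⟨τ, hτ⟩ := exists_tau hd.symm
  have hΔ := discriminant_ne_zero τ
  rw [discriminant_eq_E₄_cube_sub_E₆_sq] at hΔ
  have hπ : (π : ℂ) ≠ 0 := by exact_mod_cast Real.pi_ne_zero
  have h4 : E₄ τ ≠ 0 := by
    intro h
    rw [h] at hτ hΔ
    have : E₆ τ = 0 := by
      have h5 : g2 ^ 3 * E₆ τ ^ 2 = 0 := by rw [← hτ]; ring
      simpa [h2] using h5
    rw [this] at hΔ
    simp at hΔ
  have h6 : E₆ τ ≠ 0 := by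
    intro h
    rw [h] at hτ
    simp [h3, h4] at hτ
  obtain ⟨a, ha⟩ : ∃ a : ℂ, a = 4 * π ^ 4 / 3 * E₄ τ := ⟨_, rfl⟩
  obtain ⟨b, hb⟩ : ∃ b : ℂ, b = 8 * π ^ 6 / 27 * E₆ τ := ⟨_, rfl⟩
  have ha0 : a ≠ 0 := by rw [ha]; simp [hπ, h4]
  have hb0 : b ≠ 0 := by rw [hb]; simp [hπ, h6]
  have hab : g3 ^ 2 * a ^ 3 = g2 ^ 3 * b ^ 2 := by
    rw [ha, hb]
    linear_combination (64 * (π : ℂ) ^ 12 / 729) * hτ
  obtain ⟨c, hc⟩ := IsAlgClosed.exists_pow_nat_eq (b * g2 / (a * g3)) (by norm_num : 0 < 2)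
  have hc0 : c ≠ 0 := by
    rintro rfl
    have : b * g2 / (a * g3) ≠ 0 := by positivity
    simp at hc
    tauto
  refine ⟨mkPP c hc0 τ, ?_, ?_⟩
  · rw [g2_mk, ← ha, show c ^ 4 = (c ^ 2) ^ 2 by ring, hc]
    field_simp
    linear_combination hab
  · rw [g3_mk, ← hb, show c ^ 6 = (c ^ 2) ^ 3 by ring, hc]
    field_simp
    linear_combination hab

end Vale.Agent.P014G
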