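import Vale.Agent.P014G.Uni

/-!
# P014G: from the quartic equation to the Weierstrass function (local analysis at the cusp)
-/

open Complex Filter Topology

namespace Vale.Agent.P014G

open Vale.Agent.P010.H193

/-- the quartic -/
noncomputable def RR (A q : ℂ) : ℂ :=
  A ^ 4 - 162 * A ^ 2 * q ^ 2 - 1088 * A * q ^ 3 - 2143 * q ^ 4

/-- `q²` times the derivative of `A / q` with respect to the differential `F dq` -/
noncomputable def NN (A F : ℂ → ℂ) (q : ℂ) : ℂ := (q * deriv A q - A q) / F q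

/-- `q²` times the Weierstrass coordinate -/
noncomputable def BB (A F : ℂ → ℂ) (q : ℂ) : ℂ := A q ^ 2 / 8 - NN A F q / 4 - 27 * q ^ 2 / 8

section

variable {A F : ℂ → ℂ} (hA : AnalyticAt ℂ A 0) (hF : AnalyticAt ℂ F 0) (A0 : A 0 = 2)
  (F0 : F 0 = 1)

include hA hF F0 in
theorem NN_analytic : AnalyticAt ℂ (NN A F) 0 :=
  ((analyticAt_id.mul hA.deriv).sub hA).div hF (by simp [F0])

include A0 F0 in
theorem NN_zero : NN A F 0 = -2 := by simp [NN, A0, F0]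

include hA hF F0 in
theorem BB_analytic : AnalyticAt ℂ (BB A F) 0 := by
  have := NN_analytic hA hF F0
  unfold BB
  fun_prop

include A0 F0 in
theorem BB_zero : BB A F 0 = 1 := by
  rw [BB, NN_zero A0 F0, A0]
  norm_num

include hA hF A0 F0 in
theorem BB_ode (h : ∀ᶠ q in 𝓝[≠] 0, 4 * (q * deriv A q - A q) ^ 2 = F q ^ 2 * RR (A q) q) :
    ∀ᶠ q in 𝓝[≠] (0 : ℂ), (q * deriv (BB A F) q - 2 * BB A F q) ^ 2 =
      F q ^ 2 * (4 * BB A F q ^ 3 + 0 * q ^ 2 * BB A F q ^ 2 + (-(11 / 4)) * q ^ 4 * BB A F q +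
        (-(445 / 8)) * q ^ 6) := by
  have hN := NN_analytic hA hF F0
  have hF0 : ∀ᶠ q in 𝓝 (0 : ℂ), F q ≠ 0 := hF.continuousAt.eventually_ne (by simp [F0])
  have hN0 : ∀ᶠ q in 𝓝 (0 : ℂ), NN A F q ≠ 0 :=
    hN.continuousAt.eventually_ne (by simp [NN_zero A0 F0])
  have h1 : ∀ᶠ q in 𝓝[≠] (0 : ℂ), 4 * NN A F q ^ 2 = RR (A q) q := by
    filter_upwards [h, hF0.filter_mono nhdsWithin_le_nhds] with q h2 h3
    rw [NN, div_pow, ← mul_div_assoc, h2]
    field_simp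
  have h2 : ∀ᶠ q in 𝓝[≠] (0 : ℂ), ∀ᶠ x in 𝓝 q, 4 * NN A F x ^ 2 = RR (A x) x := by
    rw [eventually_nhdsWithin_iff] at h1 ⊢
    filter_upwards [h1.eventually_nhds] with q h3 h4
    filter_upwards [h3, isOpen_ne.mem_nhds h4] with x h5 h6 using h5 h6
  filter_upwards [h1, h2, hF0.filter_mono nhdsWithin_le_nhds, hN0.filter_mono nhdsWithin_le_nhds,
    hA.eventually_analyticAt.filter_mono nhdsWithin_le_nhds,
    hN.eventually_analyticAt.filter_mono nhdsWithin_le_nhds] with q e1 e2 e3 e4 e5 e6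
  have dA := e5.differentiableAt.hasDerivAt
  have dN := e6.differentiableAt.hasDerivAt
  have dq := hasDerivAt_id' q
  have d1 := (dN.fun_pow 2).const_mul 4
  have d2 := (((dA.fun_pow 4).fun_sub (((dA.fun_pow 2).const_mul 162).fun_mul
    (dq.fun_pow 2))).fun_sub ((dA.const_mul 1088).fun_mul (dq.fun_pow 3))).fun_sub
    ((dq.fun_pow 4).const_mul 2143)
  have d3 := d1.unique (d2.congr_of_eventuallyEq e2)
  have d4 : HasDerivAt (BB A F) _ q := (((dA.fun_pow 2).div_const 8).fun_sub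
    (dN.div_const 4)).fun_sub (((dq.fun_pow 2).const_mul 27).div_const 8)
  have e7 : q * deriv A q = F q * NN A F q + A q := by
    rw [NN]
    field_simp
    ring
  rw [d4.deriv, BB]
  unfold RR at e1
  generalize NN A F q = N at *
  generalize deriv (NN A F) q = N' at *
  generalize deriv A q = A' at *
  generalize A q = a at *
  generalize F q = f at *
  push_cast at d3 ⊢
  have e8 : q * N' = 2 * N + f * (4 * a ^ 3 - 324 * a * q ^ 2 - 1088 * q ^ 3) / 8 := by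
    apply mul_left_cancel₀ e4
    linear_combination q / 8 * d3 + (4 * a ^ 3 - 324 * a * q ^ 2 - 1088 * q ^ 3) / 8 * e7 -
      1 / 2 * e1
  have e9 : q * (2 * a ^ 1 * A' / 8 - N' / 4 - 27 * (2 * q ^ 1 * 1) / 8) -
      2 * (a ^ 2 / 8 - N / 4 - 27 * q ^ 2 / 8) =
      f * (8 * a * N - (4 * a ^ 3 - 324 * a * q ^ 2 - 1088 * q ^ 3)) / 32 := by
    linear_combination a / 4 * e7 - 1 / 4 * e8
  rw [e9]
  linear_combination f ^ 2 * (N / 64 - a ^ 2 / 128 + 81 * q ^ 2 / 128) * e1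

end

section

variable (L : PeriodPair) {V F : ℂ → ℂ} (hV : AnalyticAt ℂ V 0) (V0 : V 0 = 1)
  (hU : ∀ᶠ q in 𝓝[≠] 0, HasDerivAt (fun q => q * V q) (F q) q)

include hV V0 in
theorem U_tendsto : Tendsto (fun q => q * V q) (𝓝[≠] 0) (𝓝[≠] 0) := by
  have h := ((hasDerivAt_id' (0 : ℂ)).fun_mul hV.differentiableAt.hasDerivAt).tendsto_nhdsNE
    (by simp [V0])
  simpa using h

include hV V0 in
theorem W_eq : ∀ᶠ q in 𝓝[≠] (0 : ℂ), pa L (q * V q) / V q ^ 2 =
    q ^ 2 * L.weierstrassP (q * V q) := by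
  filter_upwards [(U_tendsto hV V0).eventually self_mem_nhdsWithin] with q (h : q * V q ≠ 0)
  have h1 : V q ≠ 0 := right_ne_zero_of_mul h
  rw [pa_eq L h]
  field_simp

include hV V0 hU in
theorem W_ode : ∀ᶠ q in 𝓝[≠] (0 : ℂ),
    (q * deriv (fun q => pa L (q * V q) / V q ^ 2) q - 2 * (pa L (q * V q) / V q ^ 2)) ^ 2 =
      F q ^ 2 * (4 * (pa L (q * V q) / V q ^ 2) ^ 3 + 0 * q ^ 2 * (pa L (q * V q) / V q ^ 2) ^ 2 +
        (-L.g₂) * q ^ 4 * (pa L (q * V q) / V q ^ 2) + (-L.g₃) * q ^ 6) := by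
  have h1 := W_eq L hV V0
  have h2 : ∀ᶠ q in 𝓝[≠] (0 : ℂ), ∀ᶠ x in 𝓝 q, pa L (x * V x) / V x ^ 2 =
      x ^ 2 * L.weierstrassP (x * V x) := by
    rw [eventually_nhdsWithin_iff] at h1 ⊢
    filter_upwards [h1.eventually_nhds] with q h3 h4
    filter_upwards [h3, isOpen_ne.mem_nhds h4] with x h5 h6 using h5 h6
  filter_upwards [h1, h2, hU, (U_tendsto hV V0).eventually (eventually_notMem L)] with
    q e1 e2 e3 e4
  have d1 := ((hasDerivAt_pow 2 q).fun_mul ((wp_hasDerivAt L e4).comp q e3)).deriv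
  rw [EventuallyEq.deriv_eq e2, e1]
  erw [d1]
  simp only [Function.comp_apply]
  push_cast
  linear_combination q ^ 6 * F q ^ 2 * L.derivWeierstrassP_sq _ e4

end

/-- the parametrisation near the cusp -/
theorem param_near (L : PeriodPair) (g2 : L.g₂ = 11 / 4) (g3 : L.g₃ = 445 / 8) {A V F : ℂ → ℂ}
    (hA : AnalyticAt ℂ A 0) (hF : AnalyticAt ℂ F 0) (hV : AnalyticAt ℂ V 0) (A0 : A 0 = 2)
    (F0 : F 0 = 1) (V0 : V 0 = 1) (hU : ∀ᶠ q in 𝓝[≠] 0, HasDerivAt (fun q => q * V q) (F q) q)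
    (h : ∀ᶠ q in 𝓝[≠] 0, 4 * (q * deriv A q - A q) ^ 2 = F q ^ 2 * RR (A q) q) :
    ∀ᶠ q in 𝓝[≠] (0 : ℂ), q ^ 2 * L.weierstrassP (q * V q) = BB A F q := by
  have h1 : AnalyticAt ℂ (fun q => pa L (q * V q) / V q ^ 2) 0 := by
    refine AnalyticAt.div (f := fun q => pa L (q * V q)) ?_ (hV.pow 2) (by simp [V0])
    exact AnalyticAt.comp (f := fun q => q * V q) (by simpa using pa_analytic L)
      (analyticAt_id.mul hV)
  have h2 := cubic_unique (BB_analytic hA hF F0) h1 hF.continuousAt (BB_zero A0 F0)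
    (by simp [pa_zero, V0]) F0 (BB_ode hA hF A0 F0 h) (by
      have := W_ode L hV V0 hU
      rwa [g2, g3] at this)
  filter_upwards [h2.filter_mono nhdsWithin_le_nhds, W_eq L hV V0] with q h3 h4
  rw [h3, h4]

end Vale.Agent.P014G
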