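import Vale.Agent.P014G.Ax
import Vale.Agent.P014B.Iface

/-!
# P014G: the period lattice of `17a2` and the real periods of the negative twists
-/

open Complex Filter Topology Set MeasureTheory
open scoped ComplexConjugate

namespace Vale.Agent.P014G

open Vale.Agent.P010.H193 Vale.Agent.P014 Vale.Agent.P014B

theorem exists_L0 : ∃ L : PeriodPair, L.g₂ = 91 / 4 ∧ L.g₃ = 165 / 8 :=
  exists_lattice (by norm_num) (by norm_num) (by norm_num)

/-- the period lattice of `17a2` -/
noncomputable def L0 : PeriodPair := exists_L0.choose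

theorem L0_g2 : L0.g₂ = 91 / 4 := exists_L0.choose_spec.1

theorem L0_g3 : L0.g₃ = 165 / 8 := exists_L0.choose_spec.2

theorem L0_real : IsReal L0 where
  g2 := by rw [L0_g2, map_div₀, map_ofNat, map_ofNat]
  g3 := by rw [L0_g3, map_div₀, map_ofNat, map_ofNat]

theorem dir_p : Dir 1 1 := Or.inl ⟨rfl, rfl⟩

theorem dir_m : Dir I (-1) := Or.inr ⟨rfl, rfl⟩

/-- the real period -/
noncomputable def wR : ℝ := (exists_gen L0_real dir_p).choose

/-- the imaginary period -/
noncomputable def wI : ℝ := (exists_gen L0_real dir_m).choose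

theorem gen_p : Gen L0 1 wR := (exists_gen L0_real dir_p).choose_spec

theorem gen_m : Gen L0 I wI := (exists_gen L0_real dir_m).choose_spec

theorem cx_p : cx L0 1 = cub (11 / 4) (-5 / 4) (-3 / 2) := by
  funext x
  rw [cx, L0_g2, L0_g3, cub]
  norm_num
  ring

theorem cx_m : cx L0 (-1) = cub (3 / 2) (5 / 4) (-11 / 4) := by
  funext x
  rw [cx, L0_g2, L0_g3, cub]
  norm_num
  ring

theorem sx_p : sx L0 1 1 (wR / 2) = 11 / 4 := by
  have h1 := gen_p.root L0_real dir_p
  have h2 := (gen_p.br L0_real dir_p).C_pos (x := 0)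
  rw [cx_p] at h1 h2
  rw [cub] at h1 h2
  generalize sx L0 1 1 (wR / 2) = s at *
  rcases mul_eq_zero.1 h1 with h3 | h3
  · rcases mul_eq_zero.1 h3 with h4 | h4
    · linarith
    · have := h2 (by linarith)
      norm_num at this
  · have := h2 (by linarith)
    norm_num at this

theorem sx_m : sx L0 I (-1) (wI / 2) = 3 / 2 := by
  have h1 := gen_m.root L0_real dir_m
  have h2 := (gen_m.br L0_real dir_m).C_pos (x := 11 / 8)
  rw [cx_m] at h1 h2
  rw [cub] at h1 h2
  generalize sx L0 I (-1) (wI / 2) = s at *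
  rcases mul_eq_zero.1 h1 with h3 | h3
  · rcases mul_eq_zero.1 h3 with h4 | h4
    · linarith
    · have := h2 (by linarith)
      norm_num at this
  · have := h2 (by linarith)
    norm_num at this

theorem int_m : ∫ x in Ioi (3 / 2 : ℝ), 1 / Real.sqrt (cub (3 / 2) (5 / 4) (-11 / 4) x) =
    wI / 2 := by
  have h := (gen_m.br L0_real dir_m).integral
  rwa [sx_m, cx_m] at h

theorem intOn_m : IntegrableOn (fun x => 1 / Real.sqrt (cub (3 / 2) (5 / 4) (-11 / 4) x))
    (Ioi (3 / 2 : ℝ)) := by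
  have h := (gen_m.br L0_real dir_m).integrableOn
  rwa [sx_m, cx_m] at h

theorem full_m : ∫ x in {x | 0 < cub (3 / 2) (5 / 4) (-11 / 4) x},
    1 / Real.sqrt (cub (3 / 2) (5 / 4) (-11 / 4) x) = wI := by
  rw [full_integral (by norm_num) (by norm_num) intOn_m, int_m]
  ring

theorem cub_cont (r a b : ℝ) : Continuous (cub r a b) := by
  unfold cub
  fun_prop

theorem Om_eq : Om = 2 * wI := by
  have h1 : Om = ∫ x in {x : ℝ | 0 < x * (x + 1) * (x + 17)},
      2 / Real.sqrt (x * (x + 1) * (x + 17)) := by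
    rw [Om, ← integral_indicator (isOpen_lt (by fun_prop) (by fun_prop)).measurableSet,
      ← integral_indicator (isOpen_lt (by fun_prop) (by fun_prop)).measurableSet,
      ← integral_neg_eq_self]
    refine integral_congr_ae (Eventually.of_forall fun x => ?_)
    have h2 : -(-x * (-x - 1) * (-x - 17)) = x * (x + 1) * (x + 17) := by ring
    have h3 : -x * (-x - 1) * (-x - 17) < 0 ↔ 0 < x * (x + 1) * (x + 17) := by
      rw [← h2, neg_pos]
    simp only [indicator, mem_ofPred_eq, h2, h3]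
  rw [h1, affine_integral (fun s => cub (3 / 2) (5 / 4) (-11 / 4) s / 4)
    ((cub_cont _ _ _).div_const _) (d := 4) (by norm_num) (-3 / 2)
    (fun x => x * (x + 1) * (x + 17)) (fun s => by unfold cub; ring), ← full_m,
    ← integral_const_mul, ← integral_const_mul]
  have h4 : Real.sqrt 4 = 2 := by
    rw [show (4 : ℝ) = 2 ^ 2 by norm_num, Real.sqrt_sq (by norm_num)]
  have h5 : {s | 0 < cub (3 / 2) (5 / 4) (-11 / 4) s / 4} =
      {s | 0 < cub (3 / 2) (5 / 4) (-11 / 4) s} := by
    ext s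
    simp
  rw [h5]
  refine integral_congr_ae (Eventually.of_forall fun x => ?_)
  simp only [Real.sqrt_div' _ (show (0 : ℝ) ≤ 4 by norm_num), h4]
  ring_nf

theorem period : PeriodStmt := by
  refine ⟨by rw [Om_eq]; linarith [gen_m.pos], fun k n hn hk => ?_⟩
  have hk' : (k : ℝ) = (-(n : ℝ) - 1) / 4 := by
    have : (4 * k + 1 : ℝ) = -(n : ℝ) := by exact_mod_cast hk
    linarith
  rw [realPeriod, affine_integral (cub (3 / 2) (5 / 4) (-11 / 4)) (cub_cont _ _ _) (d := n)
    (by exact_mod_cast hn) (-1 / 4) (psi (tw k)) (fun s => by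
      simp only [psi, tw, WeierstrassCurve.b₂, WeierstrassCurve.b₄, WeierstrassCurve.b₆, cub]
      push_cast
      rw [hk']
      ring), full_m, Om_eq]
  ring

theorem wI_lb : 1.6329 ≤ wI := by
  have h1 : ∫ x in Ioi (3 / 2 : ℝ), 1 / 2 * x ^ (-3 / 2 : ℝ) ≤ wI / 2 := by
    rw [← int_m]
    refine setIntegral_mono_on
      ((integrableOn_Ioi_rpow_of_lt (by norm_num) (by norm_num)).const_mul _) intOn_m
      measurableSet_Ioi fun x (hx : 3 / 2 < x) => ?_
    have hx0 : 0 < x := by linarith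
    have h2 : 0 < cub (3 / 2) (5 / 4) (-11 / 4) x := by
      unfold cub
      have : 0 < x - 3 / 2 := by linarith
      have : 0 < x - 5 / 4 := by linarith
      have : 0 < x - -11 / 4 := by linarith
      positivity
    have h3 : cub (3 / 2) (5 / 4) (-11 / 4) x ≤ (2 * x ^ (3 / 2 : ℝ)) ^ 2 := by
      rw [mul_pow, ← Real.rpow_natCast (x ^ _), ← Real.rpow_mul hx0.le]
      norm_num
      unfold cub
      nlinarith
    have h4 : Real.sqrt (cub (3 / 2) (5 / 4) (-11 / 4) x) ≤ 2 * x ^ (3 / 2 : ℝ) :=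
      Real.sqrt_le_iff.2 ⟨by positivity, h3⟩
    have h5 : 1 / 2 * x ^ (-3 / 2 : ℝ) = 1 / (2 * x ^ (3 / 2 : ℝ)) := by
      rw [neg_div, Real.rpow_neg hx0.le]
      field_simp
    rw [h5]
    exact one_div_le_one_div_of_le (Real.sqrt_pos.2 h2) h4
  rw [integral_const_mul, integral_Ioi_rpow_of_lt (by norm_num) (by norm_num)] at h1
  have h2 : (0.81645 : ℝ) ≤ (3 / 2 : ℝ) ^ (-3 / 2 + 1 : ℝ) := by
    rw [show (-3 / 2 + 1 : ℝ) = -(1 / 2) by norm_num, Real.rpow_neg (by norm_num),
      ← Real.sqrt_eq_rpow, ← Real.sqrt_inv]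
    exact Real.le_sqrt_of_sq_le (by norm_num)
  norm_num at h1 h2 ⊢
  linarith

theorem wp_half_p : L0.weierstrassP ((wR / 2 : ℝ) : ℂ) = 11 / 4 := by
  have h := wp_sx L0_real dir_p (wR / 2)
  rw [sx_p, one_mul] at h
  rw [h]
  norm_num

theorem wp_half_m : L0.weierstrassP (I * ((wI / 2 : ℝ) : ℂ)) = -3 / 2 := by
  rw [wp_sx L0_real dir_m (wI / 2), sx_m]
  norm_num

/-- the lattice is rectangular -/
theorem im_mem {l : ℂ} (hl : l ∈ L0.lattice) : ∃ n : ℤ, l.im = n * wI := by
  obtain ⟨a, ha⟩ := (gen_p.mem _).1 (two_re_mem L0_real hl)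
  obtain ⟨b, hb⟩ := (gen_m.mem _).1 (two_im_mem L0_real hl)
  have n1 := gen_p.notMem (half_pos gen_p.pos) (half_lt_self gen_p.pos)
  have n2 := gen_m.notMem (half_pos gen_m.pos) (half_lt_self gen_m.pos)
  rcases Int.even_or_odd' b with ⟨c, rfl | rfl⟩
  · exact ⟨c, by push_cast at hb; linarith⟩
  exfalso
  have m2 := (gen_m.mem _).2 ⟨c, rfl⟩
  rcases Int.even_or_odd' a with ⟨d, rfl | rfl⟩
  · have m1 := (gen_p.mem _).2 ⟨d, rfl⟩
    apply n2
    convert sub_mem (sub_mem hl m1) m2 using 1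
    push_cast at ha hb
    apply Complex.ext
    · simp
      linarith
    · simp
      linarith
  · have m1 := (gen_p.mem _).2 ⟨d, rfl⟩
    have h1 := (wp_eq_iff L0 n1 n2).2 (Or.inr (by
      convert sub_mem (sub_mem hl m1) m2 using 1
      push_cast at ha hb
      apply Complex.ext
      · simp
        linarith
      · simp
        linarith))
    rw [one_mul, wp_half_p, wp_half_m] at h1
    norm_num at h1

theorem two_im_of {w : ℂ} (hw : w ∈ L0.lattice ∨ L0.weierstrassP w = -5 / 4) :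
    ∃ n : ℤ, 2 * w.im = n * wI := by
  have h : 2 * w ∈ L0.lattice := by
    by_cases h1 : w ∈ L0.lattice
    · rw [two_mul]
      exact add_mem h1 h1
    · rw [← wp_deriv_eq_zero_iff L0 h1]
      have h2 := L0.derivWeierstrassP_sq w h1
      rw [hw.resolve_left h1, L0_g2, L0_g3] at h2
      exact pow_eq_zero_iff two_ne_zero |>.1 (h2.trans (by norm_num))
  simpa using im_mem h

end Vale.Agent.P014G
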